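import Mathlib

/-! # Fixed points of uniform contractions depend differentiably on parameters

A uniformly contracting family of maps of a ball in a Banach space, jointly differentiable in the
parameter and the point, has a fixed point that is differentiable in the parameter. Over `ℂ` this
is holomorphic dependence. -/

open Set Metric Filter Topology Asymptotics

namespace Vale.Agent.P218IN

variable {𝕜 : Type*} [NontriviallyNormedField 𝕜]
variable {P B : Type*} [NormedAddCommGroup P] [NormedSpace 𝕜 P] [NormedAddCommGroup B]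
  [NormedSpace 𝕜 B]

/-- existence of a fixed point in the closed ball -/
theorem exists_fixed_closedBall [CompleteSpace B] {T : B → B} {r q : ℝ} (hr : 0 ≤ r) (hq0 : 0 ≤ q)
    (hq : q < 1) (hmap : ∀ x ∈ closedBall (0 : B) r, T x ∈ closedBall (0 : B) r)
    (hlip : ∀ x ∈ closedBall (0 : B) r, ∀ y ∈ closedBall (0 : B) r, ‖T x - T y‖ ≤ q * ‖x - y‖) :
    ∃ x ∈ closedBall (0 : B) r, T x = x := by
  have hc : IsComplete (closedBall (0 : B) r) := isClosed_closedBall.isComplete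
  have hmt : MapsTo T (closedBall (0 : B) r) (closedBall (0 : B) r) := fun x hx => hmap x hx
  have hcon : ContractingWith ⟨q, hq0⟩ (hmt.restrict T _ _) := by
    refine ⟨by exact_mod_cast hq, LipschitzWith.of_dist_le_mul fun x y => ?_⟩
    have := hlip x x.2 y y.2
    rw [← dist_eq_norm, ← dist_eq_norm] at this
    exact this
  obtain ⟨y, hy, hfix, -⟩ := ContractingWith.exists_fixedPoint' hc hmt hcon
    (mem_closedBall_self hr) (edist_ne_top _ _)
  exact ⟨y, hy, hfix⟩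

/-- a priori bound and uniqueness for fixed points of a contraction -/
theorem fixed_sub_le {T T' : B → B} {q : ℝ} (hq : q < 1) {x y : B} (hx : T x = x) (hy : T' y = y)
    (hlip : ‖T x - T y‖ ≤ q * ‖x - y‖) : ‖x - y‖ ≤ ‖T y - T' y‖ / (1 - q) := by
  rw [le_div_iff₀ (by linarith)]
  have h1 : x - y = (T x - T y) + (T y - T' y) := by rw [hx, hy]; abel
  have h2 : ‖x - y‖ ≤ ‖T x - T y‖ + ‖T y - T' y‖ := by
    conv_lhs => rw [h1]
    exact norm_add_le _ _
  nlinarith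

/-- differentiability of a family of fixed points -/
theorem differentiableAt_fixed [CompleteSpace B] {T : P × B → B} {φ : P → B} {p₀ : P} {q : ℝ}
    (hq0 : 0 ≤ q) (hq : q < 1) {s : Set B} (hs : s ∈ 𝓝 (φ p₀))
    (hT : DifferentiableAt 𝕜 T (p₀, φ p₀))
    (hfix : ∀ᶠ p in 𝓝 p₀, φ p ∈ s ∧ T (p, φ p) = φ p)
    (hlip : ∀ᶠ p in 𝓝 p₀, ∀ x ∈ s, ∀ y ∈ s, ‖T (p, x) - T (p, y)‖ ≤ q * ‖x - y‖) :
    DifferentiableAt 𝕜 φ p₀ := by
  set D := fderiv 𝕜 T (p₀, φ p₀) with hD
  have hTD : HasFDerivAt T D (p₀, φ p₀) := hT.hasFDerivAt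
  set D₁ : P →L[𝕜] B := D.comp (ContinuousLinearMap.inl 𝕜 P B)
  set D₂ : B →L[𝕜] B := D.comp (ContinuousLinearMap.inr 𝕜 P B)
  have h0 := hfix.self_of_nhds
  have hl0 := hlip.self_of_nhds
  -- the partial derivative in the point has norm at most `q`
  have hD2 : HasFDerivAt (fun x => T (p₀, x)) D₂ (φ p₀) :=
    hTD.comp (φ p₀) (hasFDerivAt_prodMk_right p₀ (φ p₀))
  have hn2 : ‖D₂‖ ≤ q := by
    refine hD2.le_of_lip' hq0 ?_
    filter_upwards [hs] with x hx using hl0 x hx _ h0.1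
  have hlt : ‖D₂‖ < 1 := hn2.trans_lt hq
  let u : (B →L[𝕜] B)ˣ := Units.oneSub D₂ hlt
  -- Lipschitz estimate at `p₀`
  have hD1 : HasFDerivAt (fun p => T (p, φ p₀)) D₁ p₀ :=
    hTD.comp p₀ (hasFDerivAt_prodMk_left p₀ (φ p₀))
  have hbig : (fun p => φ p - φ p₀) =O[𝓝 p₀] fun p => p - p₀ := by
    have h1 : (fun p => T (p, φ p₀) - T (p₀, φ p₀)) =O[𝓝 p₀] fun p => p - p₀ := hD1.isBigO_sub
    refine IsBigO.trans ?_ h1
    refine IsBigO.of_bound (1 / (1 - q)) ?_
    filter_upwards [hfix, hlip] with p hp hl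
    have := fixed_sub_le (T := fun x => T (p, x)) (T' := fun x => T (p₀, x)) hq hp.2 h0.2
      (hl _ hp.1 _ h0.1)
    rw [one_div, mul_comm, ← div_eq_mul_inv]
    exact this
  have hcont : Tendsto (fun p => (p, φ p)) (𝓝 p₀) (𝓝 (p₀, φ p₀)) := by
    refine Tendsto.prodMk_nhds tendsto_id ?_
    have h1 : Tendsto (fun p => p - p₀) (𝓝 p₀) (𝓝 0) := by
      simpa using (tendsto_id (x := 𝓝 p₀)).sub_const p₀
    have h2 := hbig.trans_tendsto h1
    simpa using h2.add_const (φ p₀)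
  have hlo := (hTD.isLittleO).comp_tendsto hcont
  have hO : (fun p => (p, φ p) - (p₀, φ p₀)) =O[𝓝 p₀] fun p => p - p₀ := by
    refine IsBigO.prod_left (isBigO_refl _ _) hbig
  have hlo2 := hlo.trans_isBigO hO
  refine ⟨((u⁻¹ : (B →L[𝕜] B)ˣ) : B →L[𝕜] B).comp D₁, ?_⟩
  rw [hasFDerivAt_iff_isLittleO]
  have h3 := (((u⁻¹ : (B →L[𝕜] B)ˣ) : B →L[𝕜] B).isBigO_comp _ _).trans_isLittleO hlo2
  refine h3.congr' ?_ EventuallyEq.rfl
  filter_upwards [hfix] with p hp
  have hsplit : D ((p, φ p) - (p₀, φ p₀)) = D₁ (p - p₀) + D₂ (φ p - φ p₀) := by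
    simp only [D₁, D₂, ContinuousLinearMap.comp_apply, ContinuousLinearMap.inl_apply,
      ContinuousLinearMap.inr_apply, ← map_add]
    congr 1
    ext <;> simp
  have hu : ((u⁻¹ : (B →L[𝕜] B)ˣ) : B →L[𝕜] B) ((u : B →L[𝕜] B) (φ p - φ p₀)) = φ p - φ p₀ := by
    rw [← mul_apply_eq_comp, Units.inv_mul]
    rfl
  have hu2 : (u : B →L[𝕜] B) (φ p - φ p₀) = (φ p - φ p₀) - D₂ (φ p - φ p₀) := by
    simp [u]
  simp only [Function.comp_apply, hp.2, h0.2, hsplit, ContinuousLinearMap.comp_apply]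
  rw [show φ p - φ p₀ - (D₁ (p - p₀) + D₂ (φ p - φ p₀))
      = (u : B →L[𝕜] B) (φ p - φ p₀) - D₁ (p - p₀) by rw [hu2]; abel, map_sub, hu]

/-- **Differentiable (holomorphic) fixed points.** -/
theorem exists_fixed_differentiableOn [CompleteSpace B] {U : Set P} (hU : IsOpen U)
    {T : P × B → B} {r r' q : ℝ} (hr' : 0 ≤ r') (hr : r' < r) (hq0 : 0 ≤ q) (hq : q < 1)
    (hT : DifferentiableOn 𝕜 T (U ×ˢ ball 0 r))
    (hmap : ∀ p ∈ U, ∀ x ∈ closedBall (0 : B) r', T (p, x) ∈ closedBall (0 : B) r')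
    (hlip : ∀ p ∈ U, ∀ x ∈ ball (0 : B) r, ∀ y ∈ ball (0 : B) r,
      ‖T (p, x) - T (p, y)‖ ≤ q * ‖x - y‖) :
    ∃ φ : P → B, (∀ p ∈ U, φ p ∈ closedBall (0 : B) r' ∧ T (p, φ p) = φ p) ∧
      DifferentiableOn 𝕜 φ U := by
  have hsub : closedBall (0 : B) r' ⊆ ball 0 r := closedBall_subset_ball hr
  have hex : ∀ p, ∃ x, p ∈ U → x ∈ closedBall (0 : B) r' ∧ T (p, x) = x := by
    intro p
    by_cases hp : p ∈ U
    · obtain ⟨x, hx, hfx⟩ := exists_fixed_closedBall (T := fun x => T (p, x)) hr' hq0 hq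
        (hmap p hp) fun x hx y hy => hlip p hp x (hsub hx) y (hsub hy)
      exact ⟨x, fun _ => ⟨hx, hfx⟩⟩
    · exact ⟨0, fun h => absurd h hp⟩
  choose φ hφ using hex
  refine ⟨φ, hφ, fun p hp => ?_⟩
  have hb := hsub (hφ p hp).1
  refine (differentiableAt_fixed (T := T) hq0 hq (isOpen_ball.mem_nhds hb) ?_ ?_
    ?_).differentiableWithinAt
  · exact hT.differentiableAt ((hU.prod isOpen_ball).mem_nhds ⟨hp, hb⟩)
  · filter_upwards [hU.mem_nhds hp] with p' hp' using ⟨hsub (hφ p' hp').1, (hφ p' hp').2⟩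
  · filter_upwards [hU.mem_nhds hp] with p' hp' using hlip p' hp'

/-- a bounded family with the resolvent identity `a z - a z' = (z' - z) c a z a z'` is
differentiable -/
theorem differentiableOn_of_resolvent {A : Type*} [NormedCommRing A] [NormedAlgebra 𝕜 A]
    {U : Set 𝕜} (hU : IsOpen U) {a : 𝕜 → A} {c : A} {M : ℝ} (hM : ∀ z ∈ U, ‖a z‖ ≤ M)
    (hres : ∀ z ∈ U, ∀ z' ∈ U, a z - a z' = (z' - z) • (c * a z * a z')) :
    DifferentiableOn 𝕜 a U := by
  intro z hz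
  refine (HasDerivAt.differentiableAt (f' := -(c * a z * a z)) ?_).differentiableWithinAt
  rw [hasDerivAt_iff_isLittleO]
  have h1 : (fun z' : 𝕜 => ‖z' - z‖ ^ 2) =o[𝓝 z] fun z' => z' - z := by
    have h2 : (fun z' : 𝕜 => (z' - z) ^ 2) =o[𝓝 z] fun z' => z' - z := by
      have := (isLittleO_pow_id (𝕜 := 𝕜) (n := 2) (by norm_num)).comp_tendsto
        (show Tendsto (fun z' : 𝕜 => z' - z) (𝓝 z) (𝓝 0) by
          simpa using (tendsto_id (x := 𝓝 z)).sub_const z)
      exact this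
    have := h2.norm_left
    simpa [norm_pow] using this
  refine IsBigO.trans_isLittleO ?_ h1
  refine IsBigO.of_bound (‖c * a z * (c * a z)‖ * M) ?_
  filter_upwards [hU.mem_nhds hz] with z' hz'
  have e1 := hres z hz z' hz'
  have e2 : a z' = a z - (z' - z) • (c * a z * a z') := by rw [← e1]; abel
  have e3 : a z' - a z - (z' - z) • -(c * a z * a z)
      = ((z' - z) * (z' - z)) • (c * a z * (c * a z) * a z') := by
    have e4 : a z' - a z - (z' - z) • -(c * a z * a z)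
        = (z' - z) • (c * a z * (a z - a z')) := by
      conv_lhs => rw [e2]
      simp only [smul_neg, mul_sub, smul_sub]
      abel
    rw [e4, e1, mul_smul, mul_smul_comm]
    congr 2
    ring
  rw [e3, norm_smul, norm_mul, Real.norm_of_nonneg (by positivity)]
  have h5 : ‖c * a z * (c * a z) * a z'‖ ≤ ‖c * a z * (c * a z)‖ * M :=
    (norm_mul_le _ _).trans (mul_le_mul_of_nonneg_left (hM z' hz') (norm_nonneg _))
  calc ‖z' - z‖ * ‖z' - z‖ * ‖c * a z * (c * a z) * a z'‖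
      ≤ ‖z' - z‖ * ‖z' - z‖ * (‖c * a z * (c * a z)‖ * M) := by gcongr
    _ = _ := by ring

end Vale.Agent.P218IN
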