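import Vale.Agent.P218IN.FixPt

/-! # The inner equation as a fixed point problem in a commutative Banach algebra

Unknowns `η, σ`; data `c, e` (weights), a linear operator `I`, and the parameters `y₀, ι`:
`η = y₀ e + I ((1 + cη)² ι / 2 + c σ² / 2)`, `σ = (η - (1 + cη)² ι - c σ²) / 2`. -/

open Set Metric Filter Topology

namespace Vale.Agent.P218IN

variable {A : Type*} [NormedCommRing A] [NormedAlgebra ℂ A] [NormOneClass A]

/-- the fixed point map -/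
noncomputable def algT (c e : A) (I : A →L[ℂ] A) (z : (ℂ × A) × (A × A)) : A × A :=
  (z.1.1 • e + I ((1 / 2 : ℂ) • ((1 + c * z.2.1) ^ 2 * z.1.2 + c * z.2.2 ^ 2)),
    (1 / 2 : ℂ) • (z.2.1 - ((1 + c * z.2.1) ^ 2 * z.1.2 + c * z.2.2 ^ 2)))

theorem algT_differentiable (c e : A) (I : A →L[ℂ] A) : Differentiable ℂ (algT c e I) := by
  unfold algT
  have h : Differentiable ℂ fun z : (ℂ × A) × (A × A) =>
      (1 + c * z.2.1) ^ 2 * z.1.2 + c * z.2.2 ^ 2 := by fun_prop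
  refine Differentiable.prodMk (Differentiable.add (by fun_prop) ?_) (by fun_prop)
  exact I.differentiable.comp (h.const_smul (1 / 2 : ℂ))

theorem quad_le {c ι η σ : A} (hc : ‖c‖ ≤ 1) {r : ℝ} (hη : ‖η‖ ≤ r) (hσ : ‖σ‖ ≤ r) :
    ‖(1 + c * η) ^ 2 * ι + c * σ ^ 2‖ ≤ (1 + r) ^ 2 * ‖ι‖ + r * ‖σ‖ := by
  have hr : 0 ≤ r := (norm_nonneg _).trans hη
  have h1 : ‖1 + c * η‖ ≤ 1 + r := by
    refine (norm_add_le _ _).trans ?_
    rw [norm_one]
    have := norm_mul_le c η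
    nlinarith [norm_nonneg η, norm_nonneg c]
  have h2 : ‖(1 + c * η) ^ 2 * ι‖ ≤ (1 + r) ^ 2 * ‖ι‖ := by
    refine (norm_mul_le _ _).trans ?_
    gcongr
    exact (norm_pow_le _ 2).trans (by gcongr)
  have h3 : ‖c * σ ^ 2‖ ≤ r * ‖σ‖ := by
    refine (norm_mul_le _ _).trans ?_
    have h4 : ‖σ ^ 2‖ ≤ r * ‖σ‖ := by
      refine (norm_pow_le _ 2).trans ?_
      rw [sq]
      gcongr
    calc ‖c‖ * ‖σ ^ 2‖ ≤ 1 * (r * ‖σ‖) := by gcongr
      _ = _ := one_mul _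
  exact (norm_add_le _ _).trans (add_le_add h2 h3)

theorem quad_lip {c ι η σ η' σ' : A} (hc : ‖c‖ ≤ 1) {r : ℝ} (hη : ‖η‖ ≤ r) (hσ : ‖σ‖ ≤ r)
    (hη' : ‖η'‖ ≤ r) (hσ' : ‖σ'‖ ≤ r) :
    ‖((1 + c * η) ^ 2 * ι + c * σ ^ 2) - ((1 + c * η') ^ 2 * ι + c * σ' ^ 2)‖
      ≤ 2 * (1 + r) * ‖ι‖ * ‖η - η'‖ + 2 * r * ‖σ - σ'‖ := by
  have hr : 0 ≤ r := (norm_nonneg _).trans hη
  have e1 : ((1 + c * η) ^ 2 * ι + c * σ ^ 2) - ((1 + c * η') ^ 2 * ι + c * σ' ^ 2)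
      = ((1 + c * η) + (1 + c * η')) * ι * (c * (η - η')) + (σ + σ') * (c * (σ - σ')) := by ring
  have h0 : ∀ x : A, ‖c * x‖ ≤ ‖x‖ := fun x =>
    (norm_mul_le _ _).trans (mul_le_of_le_one_left (norm_nonneg _) hc)
  have h1 : ∀ x : A, ‖x‖ ≤ r → ‖1 + c * x‖ ≤ 1 + r := fun x hx => by
    refine (norm_add_le _ _).trans ?_
    rw [norm_one]
    linarith [h0 x]
  rw [e1]
  refine (norm_add_le _ _).trans (add_le_add ?_ ?_)
  · refine (norm_mul_le _ _).trans ?_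
    refine mul_le_mul ((norm_mul_le _ _).trans ?_) (h0 _) (norm_nonneg _) (by positivity)
    gcongr
    refine (norm_add_le _ _).trans ?_
    linarith [h1 η hη, h1 η' hη']
  · refine (norm_mul_le _ _).trans ?_
    refine mul_le_mul ((norm_add_le _ _).trans (by linarith)) (h0 _) (norm_nonneg _)
      (by positivity)

/-- the parameter domain -/
def algU (A : Type*) [NormedCommRing A] : Set (ℂ × A) := ball 0 (1 / 200) ×ˢ ball 0 (1 / 200)

theorem algT_lip {c e : A} {I : A →L[ℂ] A} (hc : ‖c‖ ≤ 1) (hI : ‖I‖ ≤ 3) {p : ℂ × A}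
    (hp : ‖p.2‖ ≤ 1 / 200) {x y : A × A} (hx : ‖x‖ ≤ 1 / 40) (hy : ‖y‖ ≤ 1 / 40) :
    ‖algT c e I (p, x) - algT c e I (p, y)‖ ≤ 2 / 3 * ‖x - y‖ := by
  have hq := quad_lip (ι := p.2) hc ((norm_fst_le x).trans hx) ((norm_snd_le x).trans hx)
    ((norm_fst_le y).trans hy) ((norm_snd_le y).trans hy)
  have h1 : ‖x.1 - y.1‖ ≤ ‖x - y‖ := norm_fst_le (x - y)
  have h2 : ‖x.2 - y.2‖ ≤ ‖x - y‖ := norm_snd_le (x - y)
  set Q := ((1 + c * x.1) ^ 2 * p.2 + c * x.2 ^ 2) - ((1 + c * y.1) ^ 2 * p.2 + c * y.2 ^ 2)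
    with hQ
  have hQ' : ‖Q‖ ≤ 1 / 10 * ‖x - y‖ := by
    have := norm_nonneg (x.1 - y.1)
    have := norm_nonneg p.2
    nlinarith [mul_le_mul hp h1 (norm_nonneg _) (by norm_num)]
  rw [Prod.norm_def]
  refine max_le ?_ ?_
  · have e : (algT c e I (p, x) - algT c e I (p, y)).1 = I ((1 / 2 : ℂ) • Q) := by
      simp only [algT, Prod.fst_sub, hQ, smul_sub, map_sub]
      abel
    rw [e]
    refine (I.le_opNorm _).trans ?_
    rw [norm_smul]
    have : ‖(1 / 2 : ℂ)‖ = 1 / 2 := by simp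
    rw [this]
    nlinarith [norm_nonneg Q, norm_nonneg I, norm_nonneg (x - y)]
  · have e : (algT c e I (p, x) - algT c e I (p, y)).2 = (1 / 2 : ℂ) • ((x.1 - y.1) - Q) := by
      simp only [algT, Prod.snd_sub, hQ, smul_sub]
      abel
    rw [e, norm_smul]
    have : ‖(1 / 2 : ℂ)‖ = 1 / 2 := by simp
    rw [this]
    have := norm_sub_le (x.1 - y.1) Q
    nlinarith [norm_nonneg (x - y)]

theorem algT_zero_le {c e : A} {I : A →L[ℂ] A} (he : ‖e‖ ≤ 1) (hI : ‖I‖ ≤ 3) (p : ℂ × A) :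
    ‖algT c e I (p, 0)‖ ≤ ‖p.1‖ + 3 / 2 * ‖p.2‖ := by
  have h2 : ‖(1 / 2 : ℂ)‖ = 1 / 2 := by simp
  rw [Prod.norm_def]
  refine max_le ?_ ?_
  · have e1 : (algT c e I (p, 0)).1 = p.1 • e + I ((1 / 2 : ℂ) • p.2) := by simp [algT]
    rw [e1]
    refine (norm_add_le _ _).trans (add_le_add ?_ ?_)
    · rw [norm_smul]
      exact mul_le_of_le_one_right (norm_nonneg _) he
    · refine (I.le_opNorm _).trans ?_
      rw [norm_smul, h2]
      nlinarith [norm_nonneg p.2, norm_nonneg I]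
  · have e1 : (algT c e I (p, 0)).2 = (1 / 2 : ℂ) • (-p.2) := by simp [algT]
    rw [e1, norm_smul, h2, norm_neg]
    nlinarith [norm_nonneg p.2, norm_nonneg p.1]

/-- **The solution of the inner system**, holomorphic in the parameters. -/
theorem exists_algSol [CompleteSpace A] {c e : A} {I : A →L[ℂ] A} (hc : ‖c‖ ≤ 1) (he : ‖e‖ ≤ 1)
    (hI : ‖I‖ ≤ 3) :
    ∃ φ : ℂ × A → A × A, DifferentiableOn ℂ φ (algU A) ∧ ∀ p ∈ algU A,
      algT c e I (p, φ p) = φ p ∧ ‖φ p‖ ≤ 1 / 50 ∧ ‖φ p‖ ≤ 3 * ‖p.1‖ + 9 / 2 * ‖p.2‖ := by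
  have hU : IsOpen (algU A) := isOpen_ball.prod isOpen_ball
  have hmem : ∀ p ∈ algU A, ‖p.1‖ ≤ 1 / 200 ∧ ‖p.2‖ ≤ 1 / 200 := fun p hp =>
    ⟨(mem_ball_zero_iff.1 hp.1).le, (mem_ball_zero_iff.1 hp.2).le⟩
  obtain ⟨φ, hφ, hd⟩ := exists_fixed_differentiableOn (𝕜 := ℂ) (T := algT c e I) (r := 1 / 40)
    (r' := 1 / 50) (q := 2 / 3) hU (by norm_num) (by norm_num) (by norm_num) (by norm_num)
    (algT_differentiable c e I).differentiableOn (fun p hp x hx => by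
      rw [mem_closedBall_zero_iff] at hx ⊢
      obtain ⟨h1, h2⟩ := hmem p hp
      have hq := quad_le (ι := p.2) hc ((norm_fst_le x).trans hx) ((norm_snd_le x).trans hx)
      have hx2 := (norm_snd_le x).trans hx
      have hx1 := (norm_fst_le x).trans hx
      set Q := (1 + c * x.1) ^ 2 * p.2 + c * x.2 ^ 2
      have hQ : ‖Q‖ ≤ 7 / 1000 := by nlinarith
      have h3 : ‖(1 / 2 : ℂ)‖ = 1 / 2 := by simp
      rw [Prod.norm_def]
      refine max_le ?_ ?_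
      · refine (norm_add_le _ _).trans ?_
        have h4 : ‖p.1 • e‖ ≤ 1 / 200 := by
          rw [norm_smul]
          exact (mul_le_of_le_one_right (norm_nonneg _) he).trans h1
        have h5 : ‖I ((1 / 2 : ℂ) • Q)‖ ≤ 3 * (1 / 2 * (7 / 1000)) := by
          refine (I.le_opNorm _).trans ?_
          rw [norm_smul, h3]
          gcongr
        linarith
      · change ‖(1 / 2 : ℂ) • (x.1 - Q)‖ ≤ _
        rw [norm_smul, h3]
        linarith [norm_sub_le x.1 Q])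
    (fun p hp x hx y hy => algT_lip hc hI (hmem p hp).2 (mem_ball_zero_iff.1 hx).le
      (mem_ball_zero_iff.1 hy).le)
  refine ⟨φ, hd, fun p hp => ⟨(hφ p hp).2, mem_closedBall_zero_iff.1 (hφ p hp).1, ?_⟩⟩
  have h1 := mem_closedBall_zero_iff.1 (hφ p hp).1
  have h2 := algT_lip (e := e) hc hI (hmem p hp).2 (x := φ p) (y := 0) (by linarith) (by simp)
  have h3 := algT_zero_le (c := c) he hI p
  rw [(hφ p hp).2, sub_zero] at h2
  have h4 := norm_sub_norm_le (φ p) (algT c e I (p, 0))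
  linarith

/-- uniqueness of small solutions -/
theorem algSol_unique {c e : A} {I : A →L[ℂ] A} (hc : ‖c‖ ≤ 1) (hI : ‖I‖ ≤ 3) {p : ℂ × A}
    (hp : ‖p.2‖ ≤ 1 / 200) {x y : A × A} (hx : ‖x‖ ≤ 1 / 40) (hy : ‖y‖ ≤ 1 / 40)
    (hfx : algT c e I (p, x) = x) (hfy : algT c e I (p, y) = y) : x = y := by
  have h := algT_lip (e := e) hc hI hp hx hy
  rw [hfx, hfy] at h
  have : ‖x - y‖ ≤ 0 := by linarith [norm_nonneg (x - y)]
  exact sub_eq_zero.1 (norm_le_zero_iff.1 this)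

end Vale.Agent.P218IN
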