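import Mathlib

/-! # The formal solution of the inner equation diverges

In the variable `t = 1/V`, `y = Y - 1`, the inner equation reads
`y = t (1 + y)² + 2 t² y' + t⁴ y'²`. The recursion for the coefficients is positive and gives
`c (n + 1) ≥ 2 n c n`, so there is no solution analytic at `t = 0`. -/

open Set Metric Filter Topology Complex
open scoped Nat ComplexOrder

namespace Vale.Agent.P218IN

/-- Taylor coefficients at `0` -/
noncomputable def tc (U : ℂ → ℂ) (n : ℕ) : ℂ := iteratedDeriv n U 0 / (n ! : ℂ)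

/-- Taylor series at `0` -/
noncomputable def PS (U : ℂ → ℂ) : PowerSeries ℂ := PowerSeries.mk (tc U)

theorem coeff_PS (U : ℂ → ℂ) (n : ℕ) : PowerSeries.coeff n (PS U) = tc U n := by simp [PS]

theorem PS_congr {U V : ℂ → ℂ} (h : U =ᶠ[𝓝 0] V) : PS U = PS V := by
  ext n
  rw [coeff_PS, coeff_PS, tc, tc, h.iteratedDeriv_eq n]

theorem PS_mul {U V : ℂ → ℂ} (hU : AnalyticAt ℂ U 0) (hV : AnalyticAt ℂ V 0) :
    PS (fun z => U z * V z) = PS U * PS V := by
  ext n
  rw [coeff_PS, PowerSeries.coeff_mul, Finset.Nat.sum_antidiagonal_eq_sum_range_succ_mk, tc,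
    iteratedDeriv_fun_mul hU.contDiffAt hV.contDiffAt, Finset.sum_div]
  apply Finset.sum_congr rfl
  intro i hi
  rw [Finset.mem_range] at hi
  have hi' : i ≤ n := by omega
  rw [coeff_PS, coeff_PS, tc, tc]
  have h1 : ((n.choose i : ℕ) : ℂ) * ((i ! : ℕ) : ℂ) * (((n - i)! : ℕ) : ℂ) = ((n ! : ℕ) : ℂ) := by
    exact_mod_cast Nat.choose_mul_factorial_mul_factorial hi'
  have h3 : ((i ! : ℕ) : ℂ) ≠ 0 := by exact_mod_cast Nat.factorial_ne_zero i
  have h4 : (((n - i)! : ℕ) : ℂ) ≠ 0 := by exact_mod_cast Nat.factorial_ne_zero (n - i)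
  have h5 : ((n.choose i : ℕ) : ℂ) ≠ 0 := by
    exact_mod_cast (Nat.choose_pos hi').ne'
  rw [← h1]
  field_simp

theorem PS_const (c : ℂ) : PS (fun _ => c) = PowerSeries.C c := by
  ext n
  rw [coeff_PS, tc, iteratedDeriv_const, PowerSeries.coeff_C]
  split_ifs with h
  · subst h; simp
  · simp

theorem PS_id : PS (fun z => z) = PowerSeries.X := by
  ext n
  rw [coeff_PS, tc, iteratedDeriv_fun_id_zero, PowerSeries.coeff_X]
  split_ifs with h
  · subst h; simp
  · simp

theorem PS_add {U V : ℂ → ℂ} (hU : AnalyticAt ℂ U 0) (hV : AnalyticAt ℂ V 0) :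
    PS (fun z => U z + V z) = PS U + PS V := by
  ext n
  rw [coeff_PS, map_add, tc, iteratedDeriv_fun_add hU.contDiffAt hV.contDiffAt,
    coeff_PS, coeff_PS, tc, tc]
  ring

theorem tc_mul_deriv {U : ℂ → ℂ} (hU : AnalyticAt ℂ U 0) (n : ℕ) :
    PowerSeries.coeff n (PS fun z => z * deriv U z) = n * tc U n := by
  rw [PS_mul (U := fun z => z) analyticAt_id hU.deriv, PS_id]
  cases n with
  | zero => simp
  | succ n =>
    rw [PowerSeries.coeff_succ_X_mul, coeff_PS, tc, tc, iteratedDeriv_succ', Nat.factorial_succ]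
    have h3 : ((n ! : ℕ) : ℂ) ≠ 0 := by exact_mod_cast Nat.factorial_ne_zero n
    have h4 : ((n : ℂ) + 1) ≠ 0 := by exact_mod_cast Nat.succ_ne_zero n
    push_cast
    field_simp

theorem coeff_sq_nonneg {f : PowerSeries ℂ} {n : ℕ} (h : ∀ k ≤ n, 0 ≤ PowerSeries.coeff k f) :
    0 ≤ PowerSeries.coeff n (f * f) := by
  rw [PowerSeries.coeff_mul]
  refine Finset.sum_nonneg fun p hp => ?_
  have := Finset.HasAntidiagonal.mem_antidiagonal.1 hp
  exact mul_nonneg (h _ (by omega)) (h _ (by omega))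

theorem tc_bound {U : ℂ → ℂ} (hU : AnalyticAt ℂ U 0) :
    ∃ r : ℝ, 0 < r ∧ ∃ C : ℝ, ∀ n, ‖tc U n‖ * r ^ n ≤ C := by
  obtain ⟨ρ, hρ⟩ := hU.hasFPowerSeriesAt
  obtain ⟨r, hr0, hr⟩ := ENNReal.lt_iff_exists_nnreal_btwn.1 hρ.radius_pos
  obtain ⟨C, -, hC⟩ := FormalMultilinearSeries.norm_mul_pow_le_of_lt_radius _ hr
  refine ⟨r, by exact_mod_cast hr0, C, fun n => ?_⟩
  have := hC n
  rwa [FormalMultilinearSeries.ofScalars_norm] at this

/-- **Divergence of the inner series.** -/
theorem no_analytic {y : ℂ → ℂ} (hy : AnalyticAt ℂ y 0)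
    (heq : ∀ᶠ t in 𝓝 (0 : ℂ),
      y t = t * (1 + y t) ^ 2 + 2 * t ^ 2 * deriv y t + t ^ 4 * deriv y t ^ 2) : False := by
  have hz : AnalyticAt ℂ (fun t => t * deriv y t) 0 := analyticAt_id.mul hy.deriv
  have h1 : AnalyticAt ℂ (fun t => 1 + y t) 0 := analyticAt_const.add hy
  set Z := PS fun t => t * deriv y t with hZ
  set W := PS fun t => 1 + y t with hW
  have hWc : ∀ n, PowerSeries.coeff n W = (if n = 0 then 1 else 0) + tc y n := by
    intro n
    rw [hW, PS_add (U := fun _ => 1) analyticAt_const hy, PS_const, map_add, coeff_PS,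
      PowerSeries.coeff_C]
  have hps : PS y = PowerSeries.X * (W * W + (PowerSeries.C 2 * Z + PowerSeries.X * (Z * Z))) := by
    have a1 : AnalyticAt ℂ (fun t => (1 + y t) * (1 + y t)) 0 := h1.mul h1
    have a2 : AnalyticAt ℂ (fun t => 2 * (t * deriv y t)) 0 := analyticAt_const.mul hz
    have a3 : AnalyticAt ℂ (fun t => (t * deriv y t) * (t * deriv y t)) 0 := hz.mul hz
    have a4 : AnalyticAt ℂ (fun t => t * ((t * deriv y t) * (t * deriv y t))) 0 :=
      analyticAt_id.mul a3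
    rw [hW, hZ, ← PS_mul h1 h1, ← PS_const, ← PS_mul (U := fun _ => 2) analyticAt_const hz,
      ← PS_mul hz hz, ← PS_id, ← PS_mul (U := fun t => t) analyticAt_id a3, ← PS_add a2 a4,
      ← PS_add a1 (a2.fun_add a4),
      ← PS_mul (U := fun t => t) analyticAt_id (a1.fun_add (a2.fun_add a4))]
    refine PS_congr ?_
    filter_upwards [heq] with t ht
    linear_combination ht
  have h0 : tc y 0 = 0 := by
    rw [← coeff_PS, hps]
    simp
  have hrec : ∀ n, tc y (n + 1) = PowerSeries.coeff n (W * W)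
      + (2 * (n * tc y n) + PowerSeries.coeff n (PowerSeries.X * (Z * Z))) := by
    intro n
    rw [← coeff_PS y (n + 1), hps, PowerSeries.coeff_succ_X_mul, map_add, map_add,
      PowerSeries.coeff_C_mul, hZ, tc_mul_deriv hy]
  have hW0 : ∀ n, (∀ k ≤ n, 0 ≤ tc y k) → 0 ≤ PowerSeries.coeff n (W * W) := by
    intro n h
    refine coeff_sq_nonneg fun k hk => ?_
    rw [hWc]
    refine add_nonneg ?_ (h k hk)
    split_ifs <;> simp
  have hZ0 : ∀ n, (∀ k ≤ n, 0 ≤ tc y k) →
      0 ≤ PowerSeries.coeff n (PowerSeries.X * (Z * Z)) := by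
    intro n h
    cases n with
    | zero => simp
    | succ n =>
      rw [PowerSeries.coeff_succ_X_mul]
      refine coeff_sq_nonneg fun k hk => ?_
      rw [hZ, tc_mul_deriv hy]
      exact mul_nonneg (by exact_mod_cast Nat.zero_le k) (h k (by omega))
  have hnn : ∀ n, ∀ k ≤ n, 0 ≤ tc y k := by
    intro n
    induction n with
    | zero =>
      intro k hk
      obtain rfl : k = 0 := by omega
      rw [h0]
    | succ n ih =>
      intro k hk
      rcases Nat.lt_or_ge k (n + 1) with h | h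
      · exact ih k (by omega)
      · obtain rfl : k = n + 1 := by omega
        rw [hrec]
        refine add_nonneg (hW0 n ih) (add_nonneg ?_ (hZ0 n ih))
        exact mul_nonneg (by norm_num) (mul_nonneg (by exact_mod_cast Nat.zero_le n) (ih n le_rfl))
  have hlow : ∀ n, ((n ! : ℝ) : ℂ) ≤ tc y (n + 1) := by
    intro n
    induction n with
    | zero =>
      rw [hrec]
      simp [hWc, h0, PowerSeries.coeff_mul]
    | succ n ih =>
      rw [hrec]
      have a1 := hW0 (n + 1) (hnn _)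
      have a2 := hZ0 (n + 1) (hnn _)
      have a3 : (0 : ℂ) ≤ ((n + 1 : ℕ) : ℂ) := by exact_mod_cast Nat.zero_le _
      have a4 : (((n + 1)! : ℝ) : ℂ) ≤ ((n + 1 : ℕ) : ℂ) * tc y (n + 1) := by
        rw [Nat.factorial_succ]
        push_cast
        have := mul_le_mul_of_nonneg_left ih a3
        push_cast at this
        exact this
      have a5 : 0 ≤ ((n + 1 : ℕ) : ℂ) * tc y (n + 1) := mul_nonneg a3 (hnn _ _ le_rfl)
      calc (((n + 1)! : ℝ) : ℂ) ≤ ((n + 1 : ℕ) : ℂ) * tc y (n + 1) := a4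
        _ ≤ _ := by
          rw [two_mul]
          calc ((n + 1 : ℕ) : ℂ) * tc y (n + 1)
              = 0 + (((n + 1 : ℕ) : ℂ) * tc y (n + 1) + 0 + 0) := by ring
            _ ≤ _ := add_le_add a1 (add_le_add (add_le_add le_rfl a5) a2)
  obtain ⟨r, hr, C, hC⟩ := tc_bound hy
  have hlow' : ∀ n, (n ! : ℝ) ≤ ‖tc y (n + 1)‖ := by
    intro n
    have := (Complex.le_def.1 (hlow n)).1
    rw [ofReal_re] at this
    exact this.trans (Complex.re_le_norm _)
  have ht := FloorSemiring.tendsto_pow_div_factorial_atTop (1 / r)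
  have hC0 : 0 < C := by
    have h1 := hC 1
    have h2 := hlow' 0
    simp only [Nat.factorial_zero, Nat.cast_one, zero_add, pow_one] at h1 h2
    nlinarith
  obtain ⟨n, hn⟩ := (ht.eventually (gt_mem_nhds (show (0 : ℝ) < r / C by positivity))).exists
  have h2 : (n ! : ℝ) * r ^ (n + 1) ≤ C :=
    (mul_le_mul_of_nonneg_right (hlow' n) (by positivity)).trans (hC (n + 1))
  have h3 : (0 : ℝ) < n ! := by exact_mod_cast Nat.factorial_pos n
  rw [div_lt_div_iff₀ h3 hC0, one_div, inv_pow, inv_mul_lt_iff₀ (by positivity)] at hn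
  rw [pow_succ] at h2
  nlinarith

end Vale.Agent.P218IN
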