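import Vale.Agent.P218IN.Wt

/-! # The forward flow of the inner equation and the isochron correction `E` -/

open Set Metric Filter Topology Complex MeasureTheory
open scoped NNReal BoundedContinuousFunction

namespace Vale.Agent.P218IN

/-- the phase space -/
def Om : Set (ℂ × ℂ) := {p | 400 < p.1.re ∧ ‖p.2 - 1‖ < 1 / 200}

theorem isOpen_Om : IsOpen Om :=
  IsOpen.inter (isOpen_lt (f := fun _ => (400 : ℝ)) (g := fun p : ℂ × ℂ => p.1.re)
    continuous_const (by fun_prop)) (isOpen_lt (f := fun p : ℂ × ℂ => ‖p.2 - 1‖)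
      (g := fun _ => (1 / 200 : ℝ)) (by fun_prop) continuous_const)

/-- the integrand of the isochron correction -/
noncomputable def hh (V Y : ℂ) : ℂ := (Y - 1) / (2 * V) + G V Y ^ 2 / (2 * Y)

theorem exists_flow : ∃ (Φ : ℂ × ℂ → ℝ → ℂ) (E : ℂ × ℂ → ℂ), DifferentiableOn ℂ E Om ∧
    (∀ τ : ℝ, 0 ≤ τ → DifferentiableOn ℂ (fun p => Φ p τ) Om) ∧
    ∀ p ∈ Om, Φ p 0 = p.2 ∧
      (∀ τ : ℝ, 0 ≤ τ → HasDerivAt (Φ p) (G (p.1 + τ) (Φ p τ)) τ ∧ ‖Φ p τ - 1‖ ≤ 1 / 50) ∧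
      IntegrableOn (fun τ : ℝ => hh (p.1 + τ) (Φ p τ)) (Ioi 0) ∧
      E p = ∫ τ in Ioi (0 : ℝ), hh (p.1 + τ) (Φ p τ) := by
  obtain ⟨φ, hφd, hφ⟩ := exists_algSol (A := BB) (c := omB) (e := eB) (I := Iop) norm_omB_le
    norm_eB_le norm_Iop_le
  have hmem : ∀ p ∈ Om, (p.2 - 1, iotaF p.1) ∈ algU BB := fun p hp =>
    ⟨mem_ball_zero_iff.2 hp.2, mem_ball_zero_iff.2 (by linarith [norm_iotaF_le hp.1])⟩
  set x : ℂ × ℂ → BB × BB := fun p => φ (p.2 - 1, iotaF p.1) with hx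
  have hi : DifferentiableOn ℂ (fun p : ℂ × ℂ => iotaF p.1) Om :=
    differentiableOn_iotaF.comp differentiableOn_fst fun p hp => hp.1
  have hxd : DifferentiableOn ℂ x Om :=
    hφd.comp ((differentiableOn_snd.sub_const 1).prodMk hi) hmem
  set F : ℂ × ℂ → BB := fun p =>
    (1 / 2 : ℂ) • ((1 + omB * (x p).1) ^ 2 * iotaF p.1 + omB * (x p).2 ^ 2) with hF
  have hsm : ∀ p ∈ Om, ‖omB * (x p).1‖ ≤ 1 / 50 := fun p hp => by
    have h1 := (hφ _ (hmem p hp)).2.1
    have h2 := norm_fst_le (x p)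
    have h3 := norm_mul_le omB (x p).1
    have h4 := mul_le_of_le_one_left (norm_nonneg (x p).1) norm_omB_le
    change ‖x p‖ ≤ _ at h1
    linarith
  have hu : ∀ p ∈ Om, IsUnit (1 + omB * (x p).1) := fun p hp => by
    have := (Units.oneSub (-(omB * (x p).1)) (by rw [norm_neg]; linarith [hsm p hp])).isUnit
    simpa using this
  set H : ℂ × ℂ → BB := fun p => (1 / 2 : ℂ) •
    (iotaF p.1 * (x p).1 + (x p).2 ^ 2 * Ring.inverse (1 + omB * (x p).1)) with hH
  have hHd : DifferentiableOn ℂ H Om := by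
    refine DifferentiableOn.const_smul ((hi.mul hxd.fst).add ((hxd.snd.pow 2).mul ?_))
      (1 / 2 : ℂ)
    exact DifferentiableOn.inverse ((hxd.fst.const_mul omB).const_add 1) hu
  set Φ : ℂ × ℂ → ℝ → ℂ := fun p τ =>
    1 + (p.2 - 1) * Complex.exp (-((τ : ℂ) / 2)) + Kf (omB * F p) τ with hΦ
  have hΦx : ∀ p ∈ Om, ∀ τ : ℝ, 0 ≤ τ → Φ p τ = 1 + om τ * ext (x p).1 τ := by
    intro p hp τ hτ
    have h1 := congrArg (fun z : BB × BB => z.1 τ.toNNReal) (hφ _ (hmem p hp)).1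
    simp only [algT, BoundedContinuousFunction.add_apply, BoundedContinuousFunction.smul_apply,
      eB_apply, Iop_apply, Real.coe_toNNReal τ hτ, smul_eq_mul] at h1
    have h2 : (om τ : ℂ) ≠ 0 := by exact_mod_cast (om_pos hτ).ne'
    simp only [hΦ, ext, hx]
    rw [← h1]
    simp only [hF, hx]
    field_simp
    ring
  refine ⟨Φ, fun p => Lam (H p), Lam.differentiable.comp_differentiableOn hHd, fun τ hτ => ?_,
    fun p hp => ?_⟩
  · refine DifferentiableOn.congr (f := fun p => 1 + om τ * ext (x p).1 τ) ?_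
      fun p hp => hΦx p hp τ hτ
    refine DifferentiableOn.const_add _ (DifferentiableOn.const_mul ?_ _)
    exact (BoundedContinuousFunction.evalCLM ℂ τ.toNNReal).differentiable.comp_differentiableOn
      hxd.fst
  have hn := (hφ _ (hmem p hp)).2.1
  change ‖x p‖ ≤ _ at hn
  have hb : ∀ (f : BB) (τ : ℝ), 0 ≤ τ → ‖f‖ ≤ 1 / 50 → ‖om τ * ext f τ‖ ≤ 1 / 50 := by
    intro f τ hτ hf
    rw [norm_mul, norm_om hτ]
    have := mul_le_of_le_one_left (norm_nonneg (ext f τ)) (om_le_one hτ)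
    linarith [norm_ext_le f τ]
  have hio : ∀ τ : ℝ, 0 ≤ τ → om τ * ext (iotaF p.1) τ = (p.1 + τ)⁻¹ := by
    intro τ hτ
    have h2 : (om τ : ℂ) ≠ 0 := by exact_mod_cast (om_pos hτ).ne'
    simp only [ext, iotaF_apply hp.1, Real.coe_toNNReal τ hτ]
    field_simp
  have hFe : ∀ τ : ℝ, 0 ≤ τ → ext (omB * F p) τ
      = (Φ p τ ^ 2 * (p.1 + τ)⁻¹ + (om τ * ext (x p).2 τ) ^ 2) / 2 := by
    intro τ hτ
    rw [ext_omB_mul _ hτ, hΦx p hp τ hτ, ← hio τ hτ]
    simp only [hF, ext, BoundedContinuousFunction.smul_apply, BoundedContinuousFunction.add_apply,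
      BoundedContinuousFunction.mul_apply, BoundedContinuousFunction.pow_apply, omB_apply,
      Real.coe_toNNReal τ hτ, smul_eq_mul, BoundedContinuousFunction.coe_one, Pi.one_apply]
    ring
  have hσ : ∀ τ : ℝ, 0 ≤ τ → om τ * ext (x p).2 τ = (Φ p τ - 1) / 2 - ext (omB * F p) τ := by
    intro τ hτ
    have h1 := congrArg (fun z : BB × BB => z.2 τ.toNNReal) (hφ _ (hmem p hp)).1
    simp only [algT] at h1
    rw [ext_omB_mul _ hτ, hΦx p hp τ hτ]
    simp only [ext, hF]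
    change _ = (x p).2 τ.toNNReal at h1
    rw [← h1]
    simp only [BoundedContinuousFunction.smul_apply, BoundedContinuousFunction.sub_apply,
      smul_eq_mul, hx]
    ring
  have hG : ∀ τ : ℝ, 0 ≤ τ → G (p.1 + τ) (Φ p τ) = -(om τ * ext (x p).2 τ) := by
    intro τ hτ
    have h1 : sg (p.1 + τ) (Φ p τ) = 1 + om τ * ext (x p).2 τ := by
      refine sg_eq_of ?_ ?_
      · linarith [hb (x p).2 τ hτ ((norm_snd_le _).trans hn)]
      · rw [div_eq_mul_inv]
        linear_combination 2 * hσ τ hτ - 2 * hFe τ hτ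
    rw [G, h1]
    ring
  have hHe : ∀ τ ∈ Ioi (0 : ℝ), (om τ : ℂ) ^ 2 * ext (H p) τ = hh (p.1 + τ) (Φ p τ) := by
    intro τ hτ
    have hτ : 0 ≤ τ := le_of_lt hτ
    have h1 := congrArg (fun f : BB => f τ.toNNReal) (Ring.mul_inverse_cancel _ (hu p hp))
    simp only [BoundedContinuousFunction.mul_apply, BoundedContinuousFunction.add_apply,
      omB_apply, Real.coe_toNNReal τ hτ, BoundedContinuousFunction.coe_one, Pi.one_apply] at h1
    have h2 : Ring.inverse (1 + omB * (x p).1) τ.toNNReal = (Φ p τ)⁻¹ := by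
      rw [hΦx p hp τ hτ]
      exact eq_inv_of_mul_eq_one_right h1
    rw [hh, hG τ hτ, div_eq_mul_inv _ (2 * _), div_eq_mul_inv _ (2 * _), mul_inv, mul_inv,
      ← hio τ hτ, ← h2, hΦx p hp τ hτ]
    simp only [hH, ext, BoundedContinuousFunction.smul_apply, BoundedContinuousFunction.add_apply,
      BoundedContinuousFunction.mul_apply, BoundedContinuousFunction.pow_apply, smul_eq_mul]
    ring
  refine ⟨by simp [hΦ, Kf], fun τ hτ => ⟨?_, ?_⟩,
    (integrableOn_Lam (H p)).congr_fun hHe measurableSet_Ioi, ?_⟩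
  · refine ((((hasDerivAt_cexp_half τ).const_mul (p.2 - 1)).const_add 1).add
      (hasDerivAt_Kf (omB * F p) τ)).congr_deriv ?_
    rw [hG τ hτ, hσ τ hτ]
    simp only [hΦ]
    ring
  · rw [hΦx p hp τ hτ, add_sub_cancel_left]
    exact hb _ τ hτ ((norm_fst_le _).trans hn)
  · exact setIntegral_congr_fun measurableSet_Ioi hHe

end Vale.Agent.P218IN
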