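import Vale.Agent.P218IN.Left
import Vale.Agent.P218IN.Div

/-! # The Stokes phenomenon: the two special solutions differ on the positive axis -/

open Set Metric Filter Topology Complex

namespace Vale.Agent.P218IN

/-- `y` solves the inner equation at `V`, with small data -/
def Sol (y : ℂ → ℂ) (V : ℂ) : Prop :=
  HasDerivAt y (G V (1 + y V)) V ∧ ‖y V‖ ≤ 1 / 40 ∧ ‖V⁻¹‖ ≤ 1 / 200

/-- Gronwall along a segment -/
theorem seg_le {y₁ y₂ : ℂ → ℂ} {V₀ w : ℂ} {T : ℝ} (hT : 0 ≤ T)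
    (h₁ : ∀ t ∈ Icc 0 T, Sol y₁ (V₀ + (t : ℝ) * w)) (h₂ : ∀ t ∈ Icc 0 T, Sol y₂ (V₀ + (t : ℝ) * w)) :
    Real.exp (w.re * T / 2) * ‖y₁ (V₀ + T * w) - y₂ (V₀ + T * w)‖
      ≤ ‖y₁ V₀ - y₂ V₀‖ * Real.exp (‖w‖ / 10 * T) := by
  set u : ℝ → ℂ := fun t => Complex.exp (w * t / 2) * (y₁ (V₀ + t * w) - y₂ (V₀ + t * w)) with hu
  have hd : ∀ t ∈ Icc 0 T, HasDerivAt u (Complex.exp (w * t / 2) * w *
      ((y₁ (V₀ + t * w) - y₂ (V₀ + t * w)) / 2 +
        (G (V₀ + t * w) (1 + y₁ (V₀ + t * w)) - G (V₀ + t * w) (1 + y₂ (V₀ + t * w))))) t := by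
    intro t ht
    have h3 : HasDerivAt (fun z : ℂ => V₀ + z * w) w (t : ℂ) := by
      simpa using ((hasDerivAt_id (t : ℂ)).mul_const w).const_add V₀
    have h4 := (((((hasDerivAt_id (t : ℂ)).const_mul w).div_const 2).cexp).mul
      (((h₁ t ht).1.comp (t : ℂ) h3).sub ((h₂ t ht).1.comp (t : ℂ) h3))).comp_ofReal
    refine h4.congr_deriv ?_
    simp only [id, Function.comp, Pi.sub_apply]
    ring
  have hg := norm_le_gronwallBound_of_norm_deriv_right_le (f := u) (a := 0) (b := T)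
    (K := ‖w‖ / 10) (ε := 0) (δ := ‖y₁ V₀ - y₂ V₀‖)
    (fun t ht => (hd t ht).continuousAt.continuousWithinAt)
    (fun t ht => (hd t (Ico_subset_Icc_self ht)).hasDerivWithinAt) (by simp [hu])
    (fun t ht => by
      have ht' := Ico_subset_Icc_self ht
      obtain ⟨a, ha, hG⟩ := G_sub (V := V₀ + t * w) (Y₁ := 1 + y₁ (V₀ + t * w))
        (Y₂ := 1 + y₂ (V₀ + t * w)) (by simpa using (h₁ t ht').2.1)
        (by simpa using (h₂ t ht').2.1) (h₁ t ht').2.2
      rw [hG, add_zero]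
      have e : Complex.exp (w * t / 2) * w * ((y₁ (V₀ + t * w) - y₂ (V₀ + t * w)) / 2 +
          a * (1 + y₁ (V₀ + t * w) - (1 + y₂ (V₀ + t * w)))) = w * (a + 1 / 2) * u t := by
        simp only [hu]
        ring
      rw [e, norm_mul, norm_mul]
      have : ‖w‖ * ‖a + 1 / 2‖ ≤ ‖w‖ / 10 := by
        have := mul_le_mul_of_nonneg_left ha (norm_nonneg w)
        linarith
      gcongr) T ⟨hT, le_rfl⟩
  rw [gronwallBound_ε0, sub_zero] at hg
  simp only [hu, norm_mul, Complex.norm_exp] at hg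
  convert hg using 3
  simp

/-- uniqueness along a segment -/
theorem seg_eq {y₁ y₂ : ℂ → ℂ} {V₀ V : ℂ}
    (h₁ : ∀ t ∈ Icc (0 : ℝ) 1, Sol y₁ (V₀ + (t : ℝ) * (V - V₀)))
    (h₂ : ∀ t ∈ Icc (0 : ℝ) 1, Sol y₂ (V₀ + (t : ℝ) * (V - V₀))) (h : y₁ V₀ = y₂ V₀) :
    y₁ V = y₂ V := by
  have := seg_le zero_le_one h₁ h₂
  rw [h, sub_self, norm_zero, zero_mul, ofReal_one, one_mul, add_sub_cancel] at this
  have h3 := Real.exp_pos ((V - V₀).re * 1 / 2)
  have h4 : ‖y₁ V - y₂ V‖ ≤ 0 := by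
    by_contra h5
    push Not at h5
    nlinarith
  exact sub_eq_zero.1 (norm_le_zero_iff.1 h4)

/-- two solutions that stay small along a horizontal ray going to the left agree -/
theorem left_eq {y₁ y₂ : ℂ → ℂ} {V : ℂ} (h₁ : ∀ s : ℝ, 0 ≤ s → Sol y₁ (V - s))
    (h₂ : ∀ s : ℝ, 0 ≤ s → Sol y₂ (V - s)) : y₁ V = y₂ V := by
  have key : ∀ T : ℝ, 0 ≤ T → ‖y₁ V - y₂ V‖ ≤ 1 / 20 * Real.exp (-(2 / 5) * T) := by
    intro T hT
    have e : ∀ t : ℝ, V - T + t * 1 = V - ((T - t : ℝ) : ℂ) := fun t => by push_cast; ring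
    have := seg_le (V₀ := V - T) (w := 1) hT
      (fun t ht => by rw [e]; exact h₁ _ (by linarith [ht.2]))
      (fun t ht => by rw [e]; exact h₂ _ (by linarith [ht.2]))
    simp only [one_re, one_mul, mul_one, sub_add_cancel, norm_one] at this
    have h3 := norm_sub_le (y₁ (V - T)) (y₂ (V - T))
    have h4 : ‖y₁ (V - T) - y₂ (V - T)‖ ≤ 1 / 20 := by linarith [(h₁ T hT).2.1, (h₂ T hT).2.1]
    have h5 : Real.exp (1 / 10 * T) = Real.exp (T / 2) * Real.exp (-(2 / 5) * T) := by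
      rw [← Real.exp_add]
      congr 1
      ring
    have h6 := Real.exp_pos (T / 2)
    have h7 := Real.exp_pos (-(2 / 5) * T)
    rw [h5] at this
    refine le_of_mul_le_mul_left (this.trans ?_) h6
    nlinarith [mul_pos h6 h7]
  have ht : Tendsto (fun T : ℝ => 1 / 20 * Real.exp (-(2 / 5) * T)) atTop (𝓝 (1 / 20 * 0)) :=
    (Real.tendsto_exp_atBot.comp (tendsto_id.const_mul_atTop_of_neg (by norm_num))).const_mul _
  have := ge_of_tendsto ht ((eventually_ge_atTop 0).mono key)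
  rw [mul_zero] at this
  exact sub_eq_zero.1 (norm_le_zero_iff.1 this)

/-- the domain of `Y₊` -/
def UP : Set ℂ := {V | 2000 < |V.re + V.im| ∨ V.re - V.im < -2000}

/-- the domain of `Y₋` -/
def UM : Set ℂ := {V | 2000 < |V.re - V.im| ∨ V.re + V.im < -2000}

theorem isOpen_UP : IsOpen UP :=
  IsOpen.union (isOpen_lt (f := fun _ => (2000 : ℝ)) (g := fun V : ℂ => |V.re + V.im|)
    continuous_const (by fun_prop)) (isOpen_lt (f := fun V : ℂ => V.re - V.im)
      (g := fun _ => (-2000 : ℝ)) (by fun_prop) continuous_const)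

theorem isOpen_UM : IsOpen UM :=
  IsOpen.union (isOpen_lt (f := fun _ => (2000 : ℝ)) (g := fun V : ℂ => |V.re - V.im|)
    continuous_const (by fun_prop)) (isOpen_lt (f := fun V : ℂ => V.re + V.im)
      (g := fun _ => (-2000 : ℝ)) (by fun_prop) continuous_const)

theorem abs_add_le_two (z : ℂ) : |z.re + z.im| / 2 ≤ ‖z‖ := by
  linarith [abs_add_le z.re z.im, abs_re_le_norm z, abs_im_le_norm z]

theorem abs_sub_le_two (z : ℂ) : |z.re - z.im| / 2 ≤ ‖z‖ := by
  linarith [abs_sub z.re z.im, abs_re_le_norm z, abs_im_le_norm z]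

theorem rayP_le (V : ℂ) (τ : ℝ) : |V.re + V.im| / 2 ≤ ‖V + τ * (-1 + I)‖ := by
  have := abs_add_le_two (V + τ * (-1 + I))
  rwa [show (V + τ * (-1 + I)).re + (V + τ * (-1 + I)).im = V.re + V.im by
    simp; ring] at this

theorem rayM_le (V : ℂ) (τ : ℝ) : |V.re - V.im| / 2 ≤ ‖V + τ * (-1 - I)‖ := by
  have := abs_sub_le_two (V + τ * (-1 - I))
  simpa using this

theorem UP_subset : UP ⊆ rayU (-1 + I) := by
  rintro V (h | h)
  · exact ⟨_, by linarith, fun τ _ => rayP_le V τ⟩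
  · refine ⟨(V.im - V.re) / 2, by linarith, fun τ hτ => ?_⟩
    have := abs_sub_le_two (V + τ * (-1 + I))
    have h2 := neg_le_abs ((V + τ * (-1 + I)).re - (V + τ * (-1 + I)).im)
    simp at this h2
    linarith

theorem UM_subset : UM ⊆ rayU (-1 - I) := by
  rintro V (h | h)
  · exact ⟨_, by linarith, fun τ _ => rayM_le V τ⟩
  · refine ⟨-(V.im + V.re) / 2, by linarith, fun τ hτ => ?_⟩
    have := abs_add_le_two (V + τ * (-1 - I))
    have h2 := neg_le_abs ((V + τ * (-1 - I)).re + (V + τ * (-1 - I)).im)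
    simp at this h2
    linarith

/-- no holomorphic bounded solution near infinity -/
theorem no_sol_infty {y : ℂ → ℂ} (h : ∀ V : ℂ, 2000 < ‖V‖ → Sol y V) : False := by
  set f : ℂ → ℂ := fun t => y t⁻¹ with hf
  have hmem : ∀ t ∈ ball (0 : ℂ) (1 / 2000) \ {0}, t ≠ 0 ∧ 2000 < ‖t⁻¹‖ := by
    rintro t ⟨h1, h2⟩
    refine ⟨h2, ?_⟩
    rw [mem_ball_zero_iff] at h1
    rw [norm_inv, lt_inv_comm₀ (by norm_num) (norm_pos_iff.2 h2)]
    linarith
  have hfd : ∀ t ∈ ball (0 : ℂ) (1 / 2000) \ {0},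
      HasDerivAt f (G t⁻¹ (1 + y t⁻¹) * -(t ^ 2)⁻¹) t := fun t ht =>
    (h _ (hmem t ht).2).1.comp t (hasDerivAt_inv (hmem t ht).1)
  have hb : ball (0 : ℂ) (1 / 2000) ∈ 𝓝 0 := ball_mem_nhds _ (by norm_num)
  have hF := differentiableOn_update_limUnder_of_bddAbove hb
    (fun t ht => (hfd t ht).differentiableAt.differentiableWithinAt)
    ⟨1 / 40, by
      rintro _ ⟨t, ht, rfl⟩
      exact (h _ (hmem t ht).2).2.1⟩
  set F := Function.update f 0 (limUnder (𝓝[≠] 0) f) with hFdef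
  have hA : AnalyticAt ℂ F 0 := hF.analyticAt hb
  have hev : ∀ᶠ t in 𝓝[≠] (0 : ℂ),
      F t = t * (1 + F t) ^ 2 + 2 * t ^ 2 * deriv F t + t ^ 4 * deriv F t ^ 2 := by
    filter_upwards [inter_mem_nhdsWithin {0}ᶜ hb] with t ht
    have ht' : t ∈ ball (0 : ℂ) (1 / 2000) \ {0} := ⟨ht.2, ht.1⟩
    have h0 := (hmem t ht').1
    have e1 : F =ᶠ[𝓝 t] f := by
      filter_upwards [isOpen_ne.mem_nhds h0] with s hs
      rw [hFdef, Function.update_of_ne hs]
    rw [e1.deriv_eq, e1.self_of_nhds, (hfd t ht').deriv]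
    have e2 := sg_sq t⁻¹ (1 + y t⁻¹)
    simp only [hf, G]
    field_simp at e2 ⊢
    linear_combination -e2
  refine no_analytic hA ?_
  rw [← nhdsNE_sup_pure, eventually_sup, eventually_pure]
  refine ⟨hev, ?_⟩
  have c1 : ContinuousAt (fun t => t * (1 + F t) ^ 2 + 2 * t ^ 2 * deriv F t
      + t ^ 4 * deriv F t ^ 2) 0 := by
    have := hA.continuousAt
    have := hA.deriv.continuousAt
    fun_prop
  exact tendsto_nhds_unique_of_eventuallyEq (hA.continuousAt.tendsto.mono_left nhdsWithin_le_nhds)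
    (c1.tendsto.mono_left nhdsWithin_le_nhds) hev

/-- **Stokes phenomenon.** -/
theorem ne_of_sol {yp ym : ℂ → ℂ} (hp : ∀ V ∈ UP, Sol yp V) (hm : ∀ V ∈ UM, Sol ym V) {K : ℝ}
    (hK : 2000 < K) : yp K ≠ ym K := by
  intro hEq
  have hag : ∀ V ∈ UP, V ∈ UM → yp V = ym V := by
    intro V h1 h2
    by_cases ha : V.re + V.im < -2000
    · refine left_eq (fun s hs => hp _ (Or.inl ?_)) fun s hs => hm _ (Or.inr ?_)
      · rw [lt_abs]
        simp only [sub_re, ofReal_re, sub_im, ofReal_im]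
        right
        linarith
      · simp only [sub_re, ofReal_re, sub_im, ofReal_im]
        linarith
    by_cases hb : V.re - V.im < -2000
    · refine left_eq (fun s hs => hp _ (Or.inr ?_)) fun s hs => hm _ (Or.inl ?_)
      · simp only [sub_re, ofReal_re, sub_im, ofReal_im]
        linarith
      · rw [lt_abs]
        simp only [sub_re, ofReal_re, sub_im, ofReal_im]
        right
        linarith
    have ha' : 2000 < V.re + V.im := by
      rcases h1 with h | h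
      · rcases lt_abs.1 h with h | h <;> linarith
      · exact absurd h hb
    have hb' : 2000 < V.re - V.im := by
      rcases h2 with h | h
      · rcases lt_abs.1 h with h | h <;> linarith
      · exact absurd h ha
    have hcv : ∀ t ∈ Icc (0 : ℝ) 1, ∀ a : ℝ, 2000 < a → 2000 < K + t * (a - K) := by
      intro t ht a ha
      rcases le_total a K with h | h
      · nlinarith [mul_nonneg (sub_nonneg.2 ht.2) (sub_nonneg.2 h)]
      · nlinarith [mul_nonneg ht.1 (sub_nonneg.2 h)]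
    refine seg_eq (V₀ := K) (fun t ht => hp _ (Or.inl ?_)) (fun t ht => hm _ (Or.inl ?_)) hEq
    · refine lt_abs.2 (Or.inl ?_)
      have := hcv t ht _ ha'
      simp
      linarith
    · refine lt_abs.2 (Or.inl ?_)
      have := hcv t ht _ hb'
      simp
      linarith
  classical
  refine no_sol_infty (y := fun V => if V ∈ UP then yp V else ym V) fun V hV => ?_
  by_cases h1 : V ∈ UP
  · have e : (fun V => if V ∈ UP then yp V else ym V) =ᶠ[𝓝 V] yp := by
      filter_upwards [isOpen_UP.mem_nhds h1] with W hW using if_pos hW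
    simp only [Sol, if_pos h1]
    exact ⟨(hp V h1).1.congr_of_eventuallyEq e, (hp V h1).2⟩
  · have h2 : V ∈ UM := by
      simp only [UP, mem_ofPred_eq, not_or, not_lt, abs_le] at h1
      have h3 := norm_le_abs_re_add_abs_im V
      refine Or.inl (lt_abs.2 (Or.inl ?_))
      rcases abs_cases V.re with h | h <;> rcases abs_cases V.im with h' | h' <;> linarith
    have e : (fun V => if V ∈ UP then yp V else ym V) =ᶠ[𝓝 V] ym := by
      filter_upwards [isOpen_UM.mem_nhds h2] with W hW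
      split_ifs with h3
      · exact hag W h3 hW
      · rfl
    simp only [Sol, if_neg h1]
    exact ⟨(hm V h2).1.congr_of_eventuallyEq e, (hm V h2).2⟩

theorem sol_of_ray {d : ℂ} {y : ℂ → ℂ} {V : ℂ} (hV : V ∈ rayU d)
    (h : HasDerivAt y (G V (1 + y V)) V ∧
      ∀ r : ℝ, 0 < r → (∀ τ : ℝ, 0 ≤ τ → r ≤ ‖V + τ * d‖) → ‖y V‖ ≤ 9 / 2 * r⁻¹) :
    Sol y V ∧ ‖y V‖ < 1 / 200 := by
  have h0 := norm_gt_of_mem_rayU hV
  obtain ⟨r, hr, hr'⟩ := hV
  have h1 := h.2 r (by linarith) hr'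
  have h2 : r⁻¹ ≤ 1000⁻¹ := inv_anti₀ (by norm_num) hr.le
  have h3 : ‖V‖⁻¹ ≤ 1000⁻¹ := inv_anti₀ (by norm_num) h0.le
  refine ⟨⟨h.1, by linarith, ?_⟩, by linarith⟩
  rw [norm_inv]
  linarith

/-- **The two special solutions.** -/
theorem exists_pm : ∃ yp ym : ℂ → ℂ,
    (∀ V ∈ UP, Sol yp V ∧ ‖yp V‖ < 1 / 200) ∧ (∀ V ∈ UM, Sol ym V ∧ ‖ym V‖ < 1 / 200) ∧
    (∀ V : ℂ, 2000 < V.re + V.im → ‖yp V‖ ≤ 9 / (V.re + V.im)) ∧
    (∀ V : ℂ, 2000 < V.re - V.im → ‖ym V‖ ≤ 9 / (V.re - V.im)) ∧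
    ∀ K : ℝ, 2000 < K → yp K ≠ ym K := by
  have n1 : ‖(-1 + I : ℂ)‖ ≤ 3 / 2 := by
    rw [← sq_le_sq₀ (norm_nonneg _) (by norm_num), Complex.sq_norm, Complex.normSq_apply]
    norm_num
  have n2 : ‖(-1 - I : ℂ)‖ ≤ 3 / 2 := by
    rw [← sq_le_sq₀ (norm_nonneg _) (by norm_num), Complex.sq_norm, Complex.normSq_apply]
    norm_num
  obtain ⟨yp, hp⟩ := exists_raySol (d := -1 + I) (by simp) n1
  obtain ⟨ym, hm⟩ := exists_raySol (d := -1 - I) (by simp) n2
  have hp' := fun V (hV : V ∈ UP) => sol_of_ray (UP_subset hV) (hp V (UP_subset hV))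
  have hm' := fun V (hV : V ∈ UM) => sol_of_ray (UM_subset hV) (hm V (UM_subset hV))
  refine ⟨yp, ym, hp', hm', fun V hV => ?_, fun V hV => ?_, fun K hK =>
    ne_of_sol (fun V hV => (hp' V hV).1) (fun V hV => (hm' V hV).1) hK⟩
  · have h1 := (hp V (UP_subset (Or.inl (lt_abs.2 (Or.inl hV))))).2 ((V.re + V.im) / 2)
      (by linarith) fun τ _ => le_trans (by linarith [le_abs_self (V.re + V.im)]) (rayP_le V τ)
    refine h1.trans (le_of_eq ?_)
    field_simp
  · have h1 := (hm V (UM_subset (Or.inl (lt_abs.2 (Or.inl hV))))).2 ((V.re - V.im) / 2)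
      (by linarith) fun τ _ => le_trans (by linarith [le_abs_self (V.re - V.im)]) (rayM_le V τ)
    refine h1.trans (le_of_eq ?_)
    field_simp

end Vale.Agent.P218IN
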