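import Vale.Agent.P218IN.Fwd

/-! # Sharp bounds and the transport equation for the isochron correction -/

open Set Metric Filter Topology Complex MeasureTheory

namespace Vale.Agent.P218IN

theorem norm_le_norm_add_real {V : ℂ} (hV : 0 ≤ V.re) {τ : ℝ} (hτ : 0 ≤ τ) : ‖V‖ ≤ ‖V + τ‖ := by
  rw [← sq_le_sq₀ (norm_nonneg _) (norm_nonneg _), Complex.sq_norm, Complex.sq_norm,
    Complex.normSq_apply, Complex.normSq_apply]
  simp only [add_re, ofReal_re, add_im, ofReal_im, add_zero]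
  nlinarith

theorem norm_gt_of_re {V : ℂ} (hV : 400 < V.re) : 400 < ‖V‖ := hV.trans_le (Complex.re_le_norm V)

theorem norm_inv_add_le {V : ℂ} (hV : 400 < V.re) {τ : ℝ} (hτ : 0 ≤ τ) :
    ‖(V + τ)⁻¹‖ ≤ 2 * (‖V‖ + τ)⁻¹ := by
  have h1 := norm_le_norm_add_real (V := V) (by linarith) hτ
  have h2 : τ ≤ ‖V + τ‖ := by
    refine le_trans ?_ (Complex.re_le_norm _)
    simp only [add_re, ofReal_re]
    linarith
  have h3 := norm_gt_of_re hV
  rw [norm_inv, ← div_eq_mul_inv, inv_eq_one_div, div_le_div_iff₀ (by linarith) (by linarith)]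
  linarith

theorem norm_inv_le_of_re {V : ℂ} (hV : 400 < V.re) : ‖V⁻¹‖ ≤ 1 / 400 := by
  rw [norm_inv, one_div]
  exact inv_anti₀ (by norm_num) (norm_gt_of_re hV).le

theorem norm_inv_add_le' {V : ℂ} (hV : 400 < V.re) {τ : ℝ} (hτ : 0 ≤ τ) :
    ‖(V + τ)⁻¹‖ ≤ 1 / 200 := by
  have := norm_inv_le_of_re (V := V + τ) (by simp only [add_re, ofReal_re]; linarith)
  linarith

theorem norm_G_le {V Y : ℂ} (hY : ‖Y - 1‖ ≤ 1 / 40) : ‖G V Y‖ ≤ ‖Y - 1‖ + 11 / 10 * ‖V⁻¹‖ := by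
  rw [G, norm_sub_rev]
  exact norm_sg_sub_one_le hY

/-- a priori bound for (perturbed) trajectories -/
theorem traj_le {V : ℂ} (hV : 400 < V.re) {y r : ℝ → ℂ} {T δ : ℝ}
    (hc : ContinuousOn y (Icc 0 T))
    (hd : ∀ τ ∈ Ico 0 T, HasDerivWithinAt y (G (V + τ) (y τ) + r τ) (Ici τ) τ)
    (hb : ∀ τ ∈ Ico 0 T, ‖y τ - 1‖ ≤ 1 / 40) (hδ : 0 ≤ δ) (hr : ∀ τ ∈ Ico 0 T, ‖r τ‖ ≤ δ) :
    ∀ τ ∈ Icc 0 T,
      ‖y τ - 1‖ ≤ ‖y 0 - 1‖ * Real.exp (-(2 / 5) * τ) + 6 * (‖V‖ + τ)⁻¹ + 3 * δ := by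
  have hA := norm_gt_of_re hV
  set a := ‖y 0 - 1‖ with ha
  have hB : ∀ x : ℝ, 0 ≤ x → HasDerivAt (fun s : ℝ => a * Real.exp (s / 10)
      + Real.exp (s / 2) * (6 * (‖V‖ + s)⁻¹ + 3 * δ)) (a * Real.exp (x / 10) / 10
      + Real.exp (x / 2) * (3 * (‖V‖ + x)⁻¹ + 3 / 2 * δ - 6 * (‖V‖ + x)⁻¹ ^ 2)) x := by
    intro x hx
    have h0 : ‖V‖ + x ≠ 0 := by positivity
    have := (((hasDerivAt_id x).div_const 10).exp.const_mul a).add
      (((hasDerivAt_id x).div_const 2).exp.mul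
        (((((hasDerivAt_id x).const_add ‖V‖).inv h0).const_mul 6).add_const (3 * δ)))
    refine this.congr_deriv ?_
    simp only [id, Pi.inv_apply]
    field_simp
    ring
  have hn : ∀ t : ℝ, ‖Complex.exp ((t : ℂ) / 2)‖ = Real.exp (t / 2) := fun t => by
    rw [Complex.norm_exp]
    simp
  have h := image_norm_le_of_norm_deriv_right_lt_deriv_boundary' (a := 0) (b := T)
    (f := fun t : ℝ => Complex.exp ((t : ℂ) / 2) * (y t - 1))
    (f' := fun t : ℝ => Complex.exp ((t : ℂ) / 2) * ((y t - 1) / 2 + (G (V + t) (y t) + r t)))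
    (ContinuousOn.mul (by fun_prop) (hc.sub continuousOn_const))
    (fun t ht => by
      have h1 := (((hasDerivAt_id (t : ℂ)).div_const 2).cexp).comp_ofReal
      refine (h1.hasDerivWithinAt.mul ((hd t ht).sub_const 1)).congr_deriv ?_
      simp only [id]
      ring)
    (B := fun s : ℝ => a * Real.exp (s / 10) + Real.exp (s / 2) * (6 * (‖V‖ + s)⁻¹ + 3 * δ))
    (by simp only [ofReal_zero, zero_div, Complex.exp_zero, Real.exp_zero, one_mul, mul_one,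
          add_zero, ← ha]
        have : 0 < ‖V‖⁻¹ := by positivity
        linarith)
    (fun t ht => (hB t ht.1).continuousAt.continuousWithinAt)
    (fun t ht => (hB t ht.1).hasDerivWithinAt)
    (fun t ht heq => by
      obtain ⟨c, hc1, hc2⟩ := G_sub (V := V + t) (hb t ht) (Y₂ := 1) (by simp)
        (norm_inv_add_le' hV ht.1)
      have h1 := norm_G_le (V := V + t) (Y := 1) (by simp)
      have h2 := norm_inv_add_le hV ht.1
      simp only [sub_self, norm_zero, zero_add] at h1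
      have e : (y t - 1) / 2 + (G (V + t) (y t) + r t)
          = (c + 1 / 2) * (y t - 1) + G (V + t) 1 + r t := by linear_combination hc2
      have h3 : ‖(y t - 1) / 2 + (G (V + t) (y t) + r t)‖
          ≤ 1 / 10 * ‖y t - 1‖ + 11 / 5 * (‖V‖ + t)⁻¹ + δ := by
        rw [e]
        refine (norm_add_le _ _).trans (add_le_add ((norm_add_le _ _).trans
          (add_le_add ?_ (by linarith))) (hr t ht))
        rw [norm_mul]
        gcongr
      simp only [norm_mul, hn] at heq ⊢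
      have h4 := Real.exp_pos (t / 2)
      have h5 : 0 < (‖V‖ + t)⁻¹ := by have := ht.1; positivity
      have h6 : (‖V‖ + t)⁻¹ ≤ 400⁻¹ := inv_anti₀ (by norm_num) (by linarith [ht.1])
      have h7 := mul_le_mul_of_nonneg_left h3 h4.le
      have h8 : 14 / 5 * (‖V‖ + t)⁻¹ + 13 / 10 * δ
          < 3 * (‖V‖ + t)⁻¹ + 3 / 2 * δ - 6 * (‖V‖ + t)⁻¹ ^ 2 := by nlinarith
      have h9 := mul_lt_mul_of_pos_left h8 h4
      nlinarith)
  intro τ hτ
  have h1 := h hτ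
  simp only [norm_mul, hn] at h1
  have h2 : Real.exp (τ / 10) = Real.exp (τ / 2) * Real.exp (-(2 / 5) * τ) := by
    rw [← Real.exp_add]
    congr 1
    ring
  rw [h2] at h1
  refine le_of_mul_le_mul_left (h1.trans (le_of_eq ?_)) (Real.exp_pos (τ / 2))
  ring

/-- the forward flow: `flow (V, Y) τ` is the solution at `V + τ` with value `Y` at `V` -/
noncomputable def flow : ℂ × ℂ → ℝ → ℂ := exists_flow.choose

/-- the isochron correction -/
noncomputable def EE : ℂ × ℂ → ℂ := exists_flow.choose_spec.choose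

theorem differentiableOn_EE : DifferentiableOn ℂ EE Om := exists_flow.choose_spec.choose_spec.1

theorem differentiableOn_flow {τ : ℝ} (hτ : 0 ≤ τ) : DifferentiableOn ℂ (fun p => flow p τ) Om :=
  exists_flow.choose_spec.choose_spec.2.1 τ hτ

theorem flow_zero {p : ℂ × ℂ} (hp : p ∈ Om) : flow p 0 = p.2 :=
  (exists_flow.choose_spec.choose_spec.2.2 p hp).1

theorem hasDerivAt_flow {p : ℂ × ℂ} (hp : p ∈ Om) {τ : ℝ} (hτ : 0 ≤ τ) :
    HasDerivAt (flow p) (G (p.1 + τ) (flow p τ)) τ :=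
  ((exists_flow.choose_spec.choose_spec.2.2 p hp).2.1 τ hτ).1

theorem norm_flow_le {p : ℂ × ℂ} (hp : p ∈ Om) {τ : ℝ} (hτ : 0 ≤ τ) : ‖flow p τ - 1‖ ≤ 1 / 50 :=
  ((exists_flow.choose_spec.choose_spec.2.2 p hp).2.1 τ hτ).2

theorem integrableOn_hh {p : ℂ × ℂ} (hp : p ∈ Om) :
    IntegrableOn (fun τ : ℝ => hh (p.1 + τ) (flow p τ)) (Ioi 0) :=
  (exists_flow.choose_spec.choose_spec.2.2 p hp).2.2.1

theorem EE_eq {p : ℂ × ℂ} (hp : p ∈ Om) : EE p = ∫ τ in Ioi (0 : ℝ), hh (p.1 + τ) (flow p τ) :=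
  (exists_flow.choose_spec.choose_spec.2.2 p hp).2.2.2

theorem norm_flow_le' {p : ℂ × ℂ} (hp : p ∈ Om) {τ : ℝ} (hτ : 0 ≤ τ) :
    ‖flow p τ - 1‖ ≤ ‖p.2 - 1‖ * Real.exp (-(2 / 5) * τ) + 6 * (‖p.1‖ + τ)⁻¹ := by
  have := traj_le hp.1 (y := flow p) (r := fun _ => 0) (T := τ) (δ := 0)
    (fun t ht => (hasDerivAt_flow hp ht.1).continuousAt.continuousWithinAt)
    (fun t ht => by simpa using (hasDerivAt_flow hp ht.1).hasDerivWithinAt)
    (fun t ht => by linarith [norm_flow_le hp ht.1]) le_rfl (by simp) τ ⟨hτ, le_rfl⟩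
  simpa [flow_zero hp] using this

theorem norm_hh_le {p : ℂ × ℂ} (hp : p ∈ Om) {τ : ℝ} (hτ : 0 ≤ τ) :
    ‖hh (p.1 + τ) (flow p τ)‖
      ≤ ‖p.2 - 1‖ / 100 * Real.exp (-(2 / 5) * τ) + 75 * ((‖p.1‖ + τ) ^ 2)⁻¹ := by
  have h1 := norm_flow_le' hp hτ
  have h2 := norm_flow_le hp hτ
  have h3 := norm_G_le (V := p.1 + τ) (Y := flow p τ) (by linarith)
  have h4 := norm_inv_add_le hp.1 hτ
  have hA := norm_gt_of_re hp.1
  have h5 : 0 < (‖p.1‖ + τ)⁻¹ := by positivity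
  have h6 : (‖p.1‖ + τ)⁻¹ ≤ 400⁻¹ := inv_anti₀ (by norm_num) (by linarith)
  have h7 : 49 / 50 ≤ ‖flow p τ‖ := by
    linarith [re_ge_of_norm_sub_one_le h2, Complex.re_le_norm (flow p τ)]
  have h8 : Real.exp (-(2 / 5) * τ) ≤ 1 := Real.exp_le_one_iff.2 (by linarith)
  have h9 := Real.exp_pos (-(2 / 5) * τ)
  have ha := hp.2
  have ha0 := norm_nonneg (p.2 - 1)
  rw [← inv_pow]
  set ρ := (‖p.1‖ + τ)⁻¹
  set u := ‖p.2 - 1‖ * Real.exp (-(2 / 5) * τ) with hu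
  have hu0 : 0 ≤ u := by positivity
  have hu1 : u ≤ 1 / 200 := by nlinarith
  have e1 : ‖(flow p τ - 1) / (2 * (p.1 + τ))‖ ≤ (u + 6 * ρ) * ρ := by
    rw [div_eq_mul_inv, mul_inv, norm_mul, norm_mul]
    have : ‖(2 : ℂ)⁻¹‖ = 1 / 2 := by simp
    rw [this]
    exact mul_le_mul h1 (by linarith) (by positivity) (by positivity)
  have e2 : ‖G (p.1 + τ) (flow p τ) ^ 2 / (2 * flow p τ)‖ ≤ (u + 41 / 5 * ρ) ^ 2 * (25 / 49) := by
    rw [norm_div, norm_mul, norm_pow, Complex.norm_ofNat, div_le_iff₀ (by linarith)]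
    calc ‖G (p.1 + τ) (flow p τ)‖ ^ 2 ≤ (u + 41 / 5 * ρ) ^ 2 := by gcongr; linarith
      _ = (u + 41 / 5 * ρ) ^ 2 * (25 / 49) * (2 * (49 / 50)) := by ring
      _ ≤ _ := by gcongr
  refine (norm_add_le _ _).trans ?_
  have e3 : ‖p.2 - 1‖ / 100 * Real.exp (-(2 / 5) * τ) = u / 100 := by rw [hu]; ring
  rw [e3]
  nlinarith [sq_nonneg (u - 41 / 5 * ρ)]

/-- the sharp bound for the isochron correction -/
theorem norm_EE_le {p : ℂ × ℂ} (hp : p ∈ Om) : ‖EE p‖ ≤ ‖p.2 - 1‖ / 40 + 75 * ‖p.1‖⁻¹ := by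
  have hA := norm_gt_of_re hp.1
  obtain ⟨i1, i2⟩ := integral_inv_sq (A := ‖p.1‖) (by linarith)
  have i3 := integrableOn_exp_mul_Ioi (a := -(2 / 5)) (by norm_num) 0
  rw [EE_eq hp]
  refine (norm_integral_le_of_norm_le ((i3.const_mul (‖p.2 - 1‖ / 100)).add (i1.const_mul 75))
    ((ae_restrict_iff' measurableSet_Ioi).2 (Eventually.of_forall fun τ hτ =>
      norm_hh_le hp (le_of_lt hτ)))).trans (le_of_eq ?_)
  rw [integral_add' (i3.const_mul _) (i1.const_mul _), integral_const_mul, integral_const_mul, i2,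
    integral_exp_mul_Ioi (by norm_num)]
  simp only [mul_zero, Real.exp_zero]
  ring

theorem norm_EE_le' {p : ℂ × ℂ} (hp : p ∈ Om) : ‖EE p‖ ≤ 1 / 5 := by
  have h1 := norm_EE_le hp
  have h2 : ‖p.1‖⁻¹ ≤ 400⁻¹ := inv_anti₀ (by norm_num) (norm_gt_of_re hp.1).le
  linarith [hp.2]

/-- the semigroup property -/
theorem flow_add {p : ℂ × ℂ} (hp : p ∈ Om) {s : ℝ} (hs : 0 ≤ s) (hq : (p.1 + s, flow p s) ∈ Om)
    {τ : ℝ} (hτ : 0 ≤ τ) : flow (p.1 + s, flow p s) τ = flow p (τ + s) := by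
  refine ODE_solution_unique_of_mem_Icc_right (K := 1) (a := 0) (b := τ)
    (v := fun t y => G (p.1 + s + t) y) (s := fun _ => closedBall 1 (1 / 40))
    (f := flow (p.1 + s, flow p s)) (g := fun t => flow p (t + s)) (fun t ht => ?_)
    (fun t ht => (hasDerivAt_flow hq ht.1).continuousAt.continuousWithinAt)
    (fun t ht => (hasDerivAt_flow hq ht.1).hasDerivWithinAt)
    (fun t ht => mem_closedBall_iff_norm.2 (by linarith [norm_flow_le hq ht.1]))
    (fun t ht => ((hasDerivAt_flow hp (add_nonneg ht.1 hs)).comp_add_const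
      t s).continuousAt.continuousWithinAt) (fun t ht => ?_)
    (fun t ht => mem_closedBall_iff_norm.2 (by linarith [norm_flow_le hp (add_nonneg ht.1 hs)]))
    (by simp [flow_zero hq]) ⟨hτ, le_rfl⟩
  · refine LipschitzOnWith.of_dist_le_mul fun x hx y hy => ?_
    rw [dist_eq_norm, dist_eq_norm, NNReal.coe_one, one_mul]
    exact G_lip (mem_closedBall_iff_norm.1 hx) (mem_closedBall_iff_norm.1 hy)
      (norm_inv_add_le' hq.1 ht.1)
  · refine ((hasDerivAt_flow hp (add_nonneg ht.1 hs)).comp_add_const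
      t s).hasDerivWithinAt.congr_deriv ?_
    push_cast
    rw [add_assoc, add_comm (s : ℂ)]

theorem EE_flow {p : ℂ × ℂ} (hp : p ∈ Om) {s : ℝ} (hs : 0 ≤ s) (hq : (p.1 + s, flow p s) ∈ Om) :
    EE (p.1 + s, flow p s) = EE p - ∫ τ in (0 : ℝ)..s, hh (p.1 + τ) (flow p τ) := by
  rw [EE_eq hq, EE_eq hp, ← intervalIntegral.integral_Ioi_sub_Ioi (integrableOn_hh hp) hs,
    sub_sub_cancel, ← zero_add s, ← integral_Ioi_add_right, zero_add]
  refine setIntegral_congr_fun measurableSet_Ioi fun τ hτ => ?_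
  simp only [flow_add hp hs hq (le_of_lt hτ)]
  push_cast
  rw [add_assoc, add_comm (s : ℂ)]

theorem differentiableAt_hh {p : ℂ × ℂ} (hY : ‖p.2 - 1‖ ≤ 1 / 40) (hV : ‖p.1⁻¹‖ ≤ 1 / 200)
    (h0 : p.1 ≠ 0) : DifferentiableAt ℂ (fun q : ℂ × ℂ => hh q.1 q.2) p := by
  have h1 := differentiableAt_sg hY hV h0
  have h2 := ne_zero_of_near hY
  unfold hh G
  fun_prop (disch := simp [*])

/-- **The transport equation.** -/
theorem fderiv_EE {p : ℂ × ℂ} (hp : p ∈ Om) : fderiv ℂ EE p (1, G p.1 p.2) = -hh p.1 p.2 := by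
  have hD := (differentiableOn_EE.differentiableAt (isOpen_Om.mem_nhds hp)).hasFDerivAt
  set c : ℝ → ℂ × ℂ := fun s => (p.1 + s, flow p s) with hc
  have hc0 : c 0 = p := by simp [hc, flow_zero hp]
  have hcd : ∀ s : ℝ, 0 ≤ s → HasDerivAt c (1, G (p.1 + s) (flow p s)) s := fun s hs =>
    (((hasDerivAt_id (s : ℂ)).const_add p.1).comp_ofReal).prodMk (hasDerivAt_flow hp hs)
  have h1 : HasDerivWithinAt (EE ∘ c) (fderiv ℂ EE p (1, G p.1 p.2)) (Ici 0) 0 := by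
    have := (hD.restrictScalars ℝ).comp_hasDerivWithinAt_of_eq 0
      (hcd 0 le_rfl).hasDerivWithinAt (s := Ici 0) hc0.symm
    simpa [flow_zero hp] using this
  have hcont : ContinuousOn (fun τ : ℝ => hh (p.1 + τ) (flow p τ)) (Ici 0) := by
    intro τ hτ
    refine ((differentiableAt_hh (p := c τ) (by linarith [norm_flow_le hp hτ])
      (norm_inv_add_le' hp.1 hτ) (add_ne_zero_of_re hp.1 hτ)).continuousAt.comp
      (hcd τ hτ).continuousAt).continuousWithinAt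
  have h2 : HasDerivWithinAt (fun s => EE p - ∫ τ in (0 : ℝ)..s, hh (p.1 + τ) (flow p τ))
      (-hh p.1 p.2) (Ici 0) 0 := by
    have := (intervalIntegral.integral_hasDerivWithinAt_right (s := Ici 0) (t := Ioi 0) (a := 0)
      (b := 0) (f := fun τ : ℝ => hh (p.1 + τ) (flow p τ)) (by simp)
      ((hcont.mono Ioi_subset_Ici_self).stronglyMeasurableAtFilter_nhdsWithin measurableSet_Ioi 0)
      ((hcont 0 self_mem_Ici).mono Ioi_subset_Ici_self)).const_sub (EE p)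
    simpa [flow_zero hp] using this
  have h3 : (EE ∘ c) =ᶠ[𝓝[Ici 0] 0]
      fun s => EE p - ∫ τ in (0 : ℝ)..s, hh (p.1 + τ) (flow p τ) := by
    have h4 : ∀ᶠ s in 𝓝 (0 : ℝ), c s ∈ Om :=
      (hcd 0 le_rfl).continuousAt.preimage_mem_nhds (by rw [hc0]; exact isOpen_Om.mem_nhds hp)
    filter_upwards [nhdsWithin_le_nhds h4, self_mem_nhdsWithin] with s h5 h6
    exact EE_flow hp h6 h5
  exact (uniqueDiffWithinAt_Ici (0 : ℝ)).eq_deriv _ h1
    (h2.congr_of_eventuallyEq h3 (by simp [hc0]))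

end Vale.Agent.P218IN
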