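import Vale.Agent.P218IN.Iso
import Vale.Agent.P218IN.Glue

/-! # The integrating factor `μ`, the first integral `κ`, and its two limits -/

open Set Metric Filter Topology Complex MeasureTheory

namespace Vale.Agent.P218IN

theorem clm_apply_eq (A : ℂ × ℂ →L[ℂ] ℂ) (x : ℂ × ℂ) : A x = x.1 * A (1, 0) + x.2 * A (0, 1) := by
  rw [← smul_eq_mul, ← smul_eq_mul, ← map_smul, ← map_smul, ← map_add]
  congr 1
  ext <;> simp

theorem hasDerivAt_line {f : ℂ × ℂ → ℂ} {p : ℂ × ℂ} (hf : DifferentiableAt ℂ f p) (a b : ℂ) :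
    HasDerivAt (fun t : ℂ => f (p.1 + t * a, p.2 + t * b)) (fderiv ℂ f p (a, b)) 0 :=
  hf.hasFDerivAt.hasLineDerivAt (a, b)

theorem Om.y_le {p : ℂ × ℂ} (hp : p ∈ Om) : ‖p.2 - 1‖ ≤ 1 / 40 := by linarith [hp.2]

theorem Om.v_le {p : ℂ × ℂ} (hp : p ∈ Om) : ‖p.1⁻¹‖ ≤ 1 / 200 := by
  linarith [norm_inv_le_of_re hp.1]

theorem Om.v_ne {p : ℂ × ℂ} (hp : p ∈ Om) : p.1 ≠ 0 := by
  simpa using add_ne_zero_of_re hp.1 le_rfl

theorem Om.y_ne {p : ℂ × ℂ} (hp : p ∈ Om) : p.2 ≠ 0 := ne_zero_of_near (Om.y_le hp)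

theorem Om.s_ne {p : ℂ × ℂ} (hp : p ∈ Om) : sg p.1 p.2 ≠ 0 := sg_ne_zero (Om.y_le hp) (Om.v_le hp)

theorem Om.d_sg {p : ℂ × ℂ} (hp : p ∈ Om) :
    DifferentiableAt ℂ (fun q : ℂ × ℂ => sg q.1 q.2) p :=
  differentiableAt_sg (Om.y_le hp) (Om.v_le hp) (Om.v_ne hp)

theorem Om.d_EE {p : ℂ × ℂ} (hp : p ∈ Om) : DifferentiableAt ℂ EE p :=
  differentiableOn_EE.differentiableAt (isOpen_Om.mem_nhds hp)

theorem convex_Om : Convex ℝ Om := by
  have h : Om = {V : ℂ | 400 < V.re} ×ˢ ball (1 : ℂ) (1 / 200) := by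
    ext p
    simp [Om, dist_eq_norm]
  rw [h]
  exact (convex_halfSpace_re_gt 400).prod (convex_ball _ _)

theorem fderiv_sg {p : ℂ × ℂ} (hp : p ∈ Om) (a b : ℂ) :
    fderiv ℂ (fun q : ℂ × ℂ => sg q.1 q.2) p (a, b)
      = (b * (1 - 2 * p.2 / p.1) + a * p.2 ^ 2 / p.1 ^ 2) / (2 * sg p.1 p.2) := by
  have h1 := (hasDerivAt_line (Om.d_sg hp) a b).pow 2
  have hV := Om.v_ne hp
  have ha : HasDerivAt (fun t : ℂ => p.1 + t * a) a 0 := by
    simpa using ((hasDerivAt_id (0 : ℂ)).mul_const a).const_add p.1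
  have hb : HasDerivAt (fun t : ℂ => p.2 + t * b) b 0 := by
    simpa using ((hasDerivAt_id (0 : ℂ)).mul_const b).const_add p.2
  have h2 := hb.mul ((hb.div ha (by simpa using hV)).const_sub 1)
  have h3 := h1.unique (h2.congr_of_eventuallyEq (Eventually.of_forall fun t => sg_sq _ _))
  have hs := Om.s_ne hp
  simp only [zero_mul, add_zero, Pi.div_apply] at h3
  rw [eq_div_iff (by simpa using hs)]
  field_simp at h3 ⊢
  simp only [Nat.cast_ofNat, Nat.add_one_sub_one, pow_one] at h3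
  linear_combination h3

/-- the integrating factor -/
noncomputable def mu (p : ℂ × ℂ) : ℂ :=
  Complex.exp (p.1 / 2 + EE p) * p.2 / (2 * p.1 * sg p.1 p.2)

theorem Om.d_mu {p : ℂ × ℂ} (hp : p ∈ Om) : DifferentiableAt ℂ mu p := by
  have h1 := Om.d_sg hp
  have h2 := Om.d_EE hp
  have h3 := Om.v_ne hp
  have h4 := Om.s_ne hp
  unfold mu
  fun_prop (disch := simp [*])

theorem fderiv_mu {p : ℂ × ℂ} (hp : p ∈ Om) (a b : ℂ) :
    fderiv ℂ mu p (a, b) = mu p * (a / 2 + fderiv ℂ EE p (a, b) + b / p.2 - a / p.1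
      - fderiv ℂ (fun q : ℂ × ℂ => sg q.1 q.2) p (a, b) / sg p.1 p.2) := by
  have hV := Om.v_ne hp
  have hY := Om.y_ne hp
  have hs := Om.s_ne hp
  have ha : HasDerivAt (fun t : ℂ => p.1 + t * a) a 0 := by
    simpa using ((hasDerivAt_id (0 : ℂ)).mul_const a).const_add p.1
  have hb : HasDerivAt (fun t : ℂ => p.2 + t * b) b 0 := by
    simpa using ((hasDerivAt_id (0 : ℂ)).mul_const b).const_add p.2
  have h2 := (((ha.div_const 2).add (hasDerivAt_line (Om.d_EE hp) a b)).cexp.mul hb).div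
    ((ha.const_mul 2).mul (hasDerivAt_line (Om.d_sg hp) a b)) (by simp [hV, hs])
  rw [(hasDerivAt_line (Om.d_mu hp) a b).unique h2]
  simp only [zero_mul, add_zero, Pi.mul_apply, Pi.add_apply, mu, Prod.mk.eta]
  field_simp
  ring

theorem mu_closed {p : ℂ × ℂ} (hp : p ∈ Om) :
    fderiv ℂ mu p (1, 0) = -fderiv ℂ (fun q : ℂ × ℂ => mu q * G q.1 q.2) p (0, 1) := by
  have h1 : fderiv ℂ (fun q : ℂ × ℂ => mu q * G q.1 q.2) p (0, 1)
      = fderiv ℂ mu p (0, 1) * G p.1 p.2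
        - mu p * fderiv ℂ (fun q : ℂ × ℂ => sg q.1 q.2) p (0, 1) := by
    have h2 := (Om.d_mu hp).hasFDerivAt.mul ((Om.d_sg hp).hasFDerivAt.const_sub 1)
    have h3 : fderiv ℂ (fun q : ℂ × ℂ => mu q * G q.1 q.2) p = _ := h2.fderiv
    rw [h3]
    simp [G]
    ring
  have hE := fderiv_EE hp
  rw [clm_apply_eq] at hE
  simp only [one_mul] at hE
  have hE' : fderiv ℂ EE p (1, 0) = -hh p.1 p.2 - G p.1 p.2 * fderiv ℂ EE p (0, 1) := by
    linear_combination hE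
  have hV := Om.v_ne hp
  have hY := Om.y_ne hp
  have hs := Om.s_ne hp
  have hq := sg_sq p.1 p.2
  rw [h1, fderiv_mu hp, fderiv_mu hp, fderiv_sg hp, fderiv_sg hp, hE', hh, G]
  set s := sg p.1 p.2
  have h4 : (1 : ℂ) / 2 - ((p.2 - 1) / (2 * p.1) + (1 - s) ^ 2 / (2 * p.2)) - 1 / p.1
      - p.2 ^ 2 / p.1 ^ 2 / (2 * s) / s + (1 / p.2 - (1 - 2 * p.2 / p.1) / (2 * s) / s) * (1 - s)
      - (1 - 2 * p.2 / p.1) / (2 * s) = 0 := by
    field_simp at hq ⊢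
    linear_combination (p.1 - p.2 - s ^ 2 * p.1) * hq
  linear_combination mu p * h4

/-- the first integral exists -/
theorem exists_kap : ∃ κ : ℂ × ℂ → ℂ, ∀ p ∈ Om, HasFDerivAt κ
    (mu p • ContinuousLinearMap.snd ℂ ℂ ℂ
      - (mu p * G p.1 p.2) • ContinuousLinearMap.fst ℂ ℂ ℂ) p := by
  have hd : ∀ p ∈ Om, DifferentiableAt ℂ (fun q : ℂ × ℂ => mu q * G q.1 q.2) p := fun p hp =>
    (Om.d_mu hp).mul ((Om.d_sg hp).const_sub 1)
  have hω : ∀ p ∈ Om, HasFDerivAt (fun p : ℂ × ℂ => mu p • ContinuousLinearMap.snd ℂ ℂ ℂ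
      - (mu p * G p.1 p.2) • ContinuousLinearMap.fst ℂ ℂ ℂ) (ContinuousLinearMap.restrictScalars ℝ
      ((fderiv ℂ mu p).smulRight (ContinuousLinearMap.snd ℂ ℂ ℂ) -
        (fderiv ℂ (fun q : ℂ × ℂ => mu q * G q.1 q.2) p).smulRight
          (ContinuousLinearMap.fst ℂ ℂ ℂ))) p := fun p hp =>
    (((Om.d_mu hp).hasFDerivAt.smul_const _).sub
      ((hd p hp).hasFDerivAt.smul_const _)).restrictScalars ℝ
  refine convex_Om.exists_forall_hasFDerivAt_of_fderiv_symmetric isOpen_Om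
    (fun p hp => (hω p hp).differentiableAt.differentiableWithinAt) fun p hp x y => ?_
  rw [(hω p hp).fderiv]
  simp only [ContinuousLinearMap.coe_restrictScalars', sub_apply,
    ContinuousLinearMap.smulRight_apply, smul_apply,
    ContinuousLinearMap.coe_snd', ContinuousLinearMap.coe_fst', smul_eq_mul]
  rw [clm_apply_eq _ x, clm_apply_eq _ y, clm_apply_eq (fderiv ℂ (fun q => mu q * _) p) x,
    clm_apply_eq (fderiv ℂ (fun q => mu q * _) p) y, mu_closed hp]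
  ring

/-- the first integral -/
noncomputable def kap : ℂ × ℂ → ℂ := exists_kap.choose

theorem hasDerivAt_kap {c : ℝ → ℂ × ℂ} {c' : ℂ × ℂ} {t : ℝ} (hc : HasDerivAt c c' t)
    (hm : c t ∈ Om) :
    HasDerivAt (fun s => kap (c s)) (mu (c t) * (c'.2 - G (c t).1 (c t).2 * c'.1)) t := by
  have := ((exists_kap.choose_spec _ hm).restrictScalars ℝ).comp_hasDerivAt t hc
  refine this.congr_deriv ?_
  simp
  ring

theorem hasDerivAt_kap_snd {V Y : ℂ} (hm : (V, Y) ∈ Om) :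
    HasDerivAt (fun y => kap (V, y)) (mu (V, Y)) Y := by
  have := (exists_kap.choose_spec _ hm).comp_hasDerivAt Y
    ((hasDerivAt_const Y V).prodMk (hasDerivAt_id Y))
  refine this.congr_deriv ?_
  simp

theorem norm_mu_le {p : ℂ × ℂ} (hp : p ∈ Om) : ‖mu p‖ ≤ Real.exp (p.1.re / 2) * ‖p.1‖⁻¹ := by
  have h1 := norm_EE_le' hp
  have h2 := norm_sg_sub_one_le' (Om.y_le hp) (Om.v_le hp)
  have h3 : 29 / 30 ≤ ‖sg p.1 p.2‖ := by
    linarith [re_ge_of_norm_sub_one_le h2, Complex.re_le_norm (sg p.1 p.2)]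
  have h4 : ‖p.2‖ ≤ 41 / 40 := by
    have := norm_add_le (p.2 - 1) 1
    simp only [sub_add_cancel, norm_one] at this
    linarith [Om.y_le hp]
  have h5 : ‖Complex.exp (EE p)‖ ≤ 7 / 5 := by
    have := norm_add_le (Complex.exp (EE p) - 1) 1
    simp only [sub_add_cancel, norm_one] at this
    linarith [Complex.norm_exp_sub_one_le (x := EE p) (by linarith)]
  have h6 := norm_gt_of_re hp.1
  have h7 := Real.exp_pos (p.1.re / 2)
  have e : ‖Complex.exp (p.1 / 2)‖ = Real.exp (p.1.re / 2) := by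
    rw [Complex.norm_exp]
    simp
  rw [mu, Complex.exp_add, norm_div, norm_mul, norm_mul, norm_mul, norm_mul, e,
    Complex.norm_ofNat, div_le_iff₀ (by positivity)]
  calc Real.exp (p.1.re / 2) * ‖Complex.exp (EE p)‖ * ‖p.2‖
      ≤ Real.exp (p.1.re / 2) * (7 / 5) * (41 / 40) := by gcongr
    _ ≤ Real.exp (p.1.re / 2) * (2 * ‖sg p.1 p.2‖) := by nlinarith
    _ = _ := by field_simp

theorem Om.of_ball {V Y y : ℂ} (h : (V, Y) ∈ Om) (hy : y ∈ ball (1 : ℂ) (1 / 200)) :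
    (V, y) ∈ Om := ⟨h.1, mem_ball_iff_norm.1 hy⟩

theorem Om.ball {V Y : ℂ} (h : (V, Y) ∈ Om) : Y ∈ ball (1 : ℂ) (1 / 200) :=
  mem_ball_iff_norm.2 h.2

theorem norm_kap_sub_le {V Y₁ Y₂ : ℂ} (h₁ : (V, Y₁) ∈ Om) (h₂ : (V, Y₂) ∈ Om) :
    ‖kap (V, Y₁) - kap (V, Y₂)‖ ≤ Real.exp (V.re / 2) * ‖V‖⁻¹ * ‖Y₁ - Y₂‖ :=
  (convex_ball (1 : ℂ) (1 / 200)).norm_image_sub_le_of_norm_hasDerivWithin_le
    (f := fun y => kap (V, y)) (f' := fun y => mu (V, y))
    (fun _ hy => (hasDerivAt_kap_snd (Om.of_ball h₁ hy)).hasDerivWithinAt)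
    (fun _ hy => norm_mu_le (Om.of_ball h₁ hy)) (Om.ball h₂) (Om.ball h₁)

theorem mu_sub_le {V Y : ℂ} (hV : 2000 ≤ ‖V‖) (h : (V, Y) ∈ Om) :
    ‖mu (V, Y) - Complex.exp (V / 2) / (2 * V)‖ ≤ ‖Complex.exp (V / 2) / (2 * V)‖ / 2 := by
  have h1 := norm_EE_le h
  have h0 : ‖V‖⁻¹ ≤ 2000⁻¹ := inv_anti₀ (by norm_num) hV
  have hY := h.2
  simp only at h1 hY
  have h2 := norm_sg_sub_one_le' (Om.y_le h) (Om.v_le h)
  simp only at h2
  have h3 : 29 / 30 ≤ ‖sg V Y‖ := by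
    linarith [re_ge_of_norm_sub_one_le h2, Complex.re_le_norm (sg V Y)]
  have h5 := Complex.norm_exp_sub_one_le (x := EE (V, Y)) (by linarith)
  have hs := Om.s_ne h
  have hV0 := Om.v_ne h
  simp only at hs hV0
  have e : mu (V, Y) - Complex.exp (V / 2) / (2 * V) = Complex.exp (V / 2) / (2 * V) *
      (((Complex.exp (EE (V, Y)) - 1) * ((Y - 1) + 1) + (Y - 1) - (sg V Y - 1)) / sg V Y) := by
    simp only [mu, Complex.exp_add]
    field_simp
    ring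
  rw [e, norm_mul, div_eq_mul_inv _ (2 : ℝ)]
  gcongr
  rw [norm_div, div_le_iff₀ (by linarith)]
  have h6 : ‖(Complex.exp (EE (V, Y)) - 1) * ((Y - 1) + 1)‖ ≤ 1 / 10 * 2 := by
    rw [norm_mul]
    have := norm_add_le (Y - 1) 1
    rw [norm_one] at this
    gcongr <;> linarith
  linarith [norm_sub_le ((Complex.exp (EE (V, Y)) - 1) * ((Y - 1) + 1) + (Y - 1)) (sg V Y - 1),
    norm_add_le ((Complex.exp (EE (V, Y)) - 1) * ((Y - 1) + 1)) (Y - 1)]

theorem kap_inj {V Y₁ Y₂ : ℂ} (hV : 2000 ≤ ‖V‖) (h₁ : (V, Y₁) ∈ Om) (h₂ : (V, Y₂) ∈ Om)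
    (h : kap (V, Y₁) = kap (V, Y₂)) : Y₁ = Y₂ := by
  set m := Complex.exp (V / 2) / (2 * V) with hm
  have hm0 : 0 < ‖m‖ := norm_pos_iff.2 (div_ne_zero (Complex.exp_ne_zero _)
    (mul_ne_zero two_ne_zero (Om.v_ne h₁)))
  have := (convex_ball (1 : ℂ) (1 / 200)).norm_image_sub_le_of_norm_hasDerivWithin_le
    (f := fun y => kap (V, y) - m * y) (f' := fun y => mu (V, y) - m) (C := ‖m‖ / 2)
    (fun y hy => by
      simpa using ((hasDerivAt_kap_snd (Om.of_ball h₁ hy)).fun_sub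
        ((hasDerivAt_id y).const_mul m)).hasDerivWithinAt)
    (fun y hy => mu_sub_le hV (Om.of_ball h₁ hy)) (Om.ball h₁) (Om.ball h₂)
  rw [h, show kap (V, Y₂) - m * Y₂ - (kap (V, Y₂) - m * Y₁) = -(m * (Y₂ - Y₁)) by ring, norm_neg,
    norm_mul] at this
  have h3 : ‖Y₂ - Y₁‖ ≤ 0 := by
    by_contra h4
    push Not at h4
    nlinarith
  exact (sub_eq_zero.1 (norm_le_zero_iff.1 h3)).symm

theorem tendsto_kap_aux {K : ℝ} (hK : 400 < K) {y : ℂ → ℂ} {ε : ℝ} (hε : ε = 1 ∨ ε = -1)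
    (hy : ∀ η : ℝ, 0 ≤ η → Sol y (K + (ε * η : ℝ) * I) ∧ ‖y (K + (ε * η : ℝ) * I)‖ < 1 / 200)
    {Y : ℝ → ℂ} (hY : ∀ η, ‖Y η - 1‖ < 1 / 200) :
    Tendsto (fun η : ℝ => kap (K + (ε * η : ℝ) * I, Y η)) atTop (𝓝 (kap (K, 1 + y K))) := by
  have hre : ∀ η : ℝ, 400 < ((K : ℂ) + η * I).re := fun η => by simpa using hK
  have hm : ∀ η : ℝ, 0 ≤ η → ((K : ℂ) + (ε * η : ℝ) * I, 1 + y (K + (ε * η : ℝ) * I)) ∈ Om :=
    fun η hη => ⟨hre _, by simpa using (hy η hη).2⟩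
  have hd : ∀ η : ℝ, 0 ≤ η → HasDerivAt
      (fun η : ℝ => kap (K + (ε * η : ℝ) * I, 1 + y (K + (ε * η : ℝ) * I))) 0 η := by
    intro η hη
    have h1 : HasDerivAt (fun z : ℂ => (K : ℂ) + ε * z * I) (ε * I) η := by
      simpa using (((hasDerivAt_id (η : ℂ)).const_mul (ε : ℂ)).mul_const I).const_add (K : ℂ)
    have h2 := (hy η hη).1.1
    have h3 := hm η hη
    push_cast at h2 h3 ⊢
    have h4 := hasDerivAt_kap (h1.comp_ofReal.prodMk
      ((h2.comp (η : ℂ) h1).const_add 1).comp_ofReal) h3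
    refine h4.congr_deriv ?_
    simp
  have hc : ∀ η : ℝ, 0 ≤ η →
      kap (K + (ε * η : ℝ) * I, 1 + y (K + (ε * η : ℝ) * I)) = kap (K, 1 + y K) := by
    intro η hη
    have := constant_of_has_deriv_right_zero (a := 0) (b := η)
      (fun t ht => (hd t ht.1).continuousAt.continuousWithinAt)
      (fun t ht => (hd t ht.1).hasDerivWithinAt) η ⟨hη, le_rfl⟩
    simpa using this
  rw [tendsto_iff_norm_sub_tendsto_zero]
  refine squeeze_zero' (Eventually.of_forall fun _ => norm_nonneg _)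
    (g := fun η : ℝ => Real.exp (K / 2) * η⁻¹) ?_
    (by simpa using tendsto_inv_atTop_zero.const_mul (Real.exp (K / 2)))
  filter_upwards [eventually_gt_atTop 0] with η hη
  rw [← hc η hη.le]
  refine (norm_kap_sub_le ⟨hre _, hY η⟩ (hm η hη.le)).trans ?_
  have h1 : η ≤ ‖(K : ℂ) + (ε * η : ℝ) * I‖ := by
    refine le_trans ?_ (Complex.abs_im_le_norm _)
    rcases hε with rfl | rfl <;> simp [abs_of_pos hη]
  have h2 : ‖Y η - (1 + y (K + (ε * η : ℝ) * I))‖ ≤ 1 := by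
    rw [← sub_sub]
    linarith [norm_sub_le (Y η - 1) (y (K + (ε * η : ℝ) * I)), hY η, (hy η hη.le).2]
  have e : ((K : ℂ) + (ε * η : ℝ) * I).re = K := by simp
  rw [e]
  refine (mul_le_of_le_one_right (by positivity) h2).trans ?_
  gcongr

/-- **The two limits of the first integral along a vertical line differ.** -/
theorem exists_kap_limits {K : ℝ} (hK : 2000 < K) : ∃ kp km : ℂ, kp ≠ km ∧
    ∀ Y : ℝ → ℂ, (∀ η, ‖Y η - 1‖ < 1 / 200) →
      Tendsto (fun η : ℝ => kap (K + η * I, Y η)) atTop (𝓝 kp) ∧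
      Tendsto (fun η : ℝ => kap (K + η * I, Y η)) atBot (𝓝 km) := by
  obtain ⟨yp, ym, hp, hm, -, -, hne⟩ := exists_pm
  have h1 : ∀ η : ℝ, 0 ≤ η → (K : ℂ) + (1 * η : ℝ) * I ∈ UP := fun η hη =>
    Or.inl (lt_abs.2 (Or.inl (by simp; linarith)))
  have h2 : ∀ η : ℝ, 0 ≤ η → (K : ℂ) + (-1 * η : ℝ) * I ∈ UM := fun η hη =>
    Or.inl (lt_abs.2 (Or.inl (by simp; linarith)))
  have hre : 400 < (K : ℂ).re := by simp; linarith
  refine ⟨kap (K, 1 + yp K), kap (K, 1 + ym K), fun h => hne K hK ?_, fun Y hY => ⟨?_, ?_⟩⟩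
  · refine add_left_cancel (kap_inj (V := (K : ℂ)) ?_ ⟨hre, ?_⟩ ⟨hre, ?_⟩ h)
    · rw [Complex.norm_real, Real.norm_of_nonneg (by linarith)]
      exact hK.le
    · simpa using (hp _ (h1 0 le_rfl)).2
    · simpa using (hm _ (h2 0 le_rfl)).2
  · simpa using tendsto_kap_aux (by linarith) (Or.inl rfl) (fun η hη => hp _ (h1 η hη)) hY
  · have := (tendsto_kap_aux (by linarith) (Or.inr rfl) (fun η hη => hm _ (h2 η hη))
      (Y := fun η => Y (-η)) (fun η => hY _)).comp tendsto_neg_atBot_atTop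
    simpa [Function.comp_def] using this

end Vale.Agent.P218IN
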