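import Vale.Agent.P218IN.Ray

/-! # The two special solutions `Y₊, Y₋` of the inner equation -/

open Set Metric Filter Topology Complex MeasureTheory
open scoped NNReal BoundedContinuousFunction

namespace Vale.Agent.P218IN

/-- points whose ray in direction `d` stays far from the origin -/
def rayU (d : ℂ) : Set ℂ := {V | ∃ r : ℝ, 1000 < r ∧ ∀ τ : ℝ, 0 ≤ τ → r ≤ ‖V + τ * d‖}

theorem isOpen_rayU (d : ℂ) : IsOpen (rayU d) := by
  rw [Metric.isOpen_iff]
  rintro V ⟨r, hr, h⟩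
  refine ⟨r - 1000, by linarith, fun W hW => ⟨r - ‖W - V‖, ?_, fun τ hτ => ?_⟩⟩
  · rw [mem_ball, dist_eq_norm] at hW
    linarith
  · have h1 := h τ hτ
    have h2 := norm_sub_le (W + τ * d) (W - V)
    rw [show W + τ * d - (W - V) = V + τ * d by ring] at h2
    linarith

theorem add_mem_rayU {d V : ℂ} (hV : V ∈ rayU d) {t : ℝ} (ht : 0 ≤ t) : V + t * d ∈ rayU d := by
  obtain ⟨r, hr, h⟩ := hV
  refine ⟨r, hr, fun τ hτ => ?_⟩
  have := h (t + τ) (add_nonneg ht hτ)
  push_cast at this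
  rwa [add_assoc, ← add_mul]

theorem norm_gt_of_mem_rayU {d V : ℂ} (hV : V ∈ rayU d) : 1000 < ‖V‖ := by
  obtain ⟨r, hr, h⟩ := hV
  have := h 0 le_rfl
  simp only [ofReal_zero, zero_mul, add_zero] at this
  linarith

/-- the inverse along the ray -/
noncomputable def iotaR (d V : ℂ) : BB := mkB fun τ : ℝ≥0 => (V + (τ : ℝ) * d)⁻¹

theorem iotaR_aux {d V : ℂ} {r : ℝ} (hr : 0 < r) (h : ∀ τ : ℝ, 0 ≤ τ → r ≤ ‖V + τ * d‖) :
    (Continuous fun τ : ℝ≥0 => (V + (τ : ℝ) * d)⁻¹) ∧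
      ∀ τ : ℝ≥0, ‖(V + (τ : ℝ) * d)⁻¹‖ ≤ r⁻¹ := by
  refine ⟨Continuous.inv₀ (by fun_prop) fun τ h0 => ?_, fun τ => ?_⟩
  · have := h τ τ.2
    rw [h0, norm_zero] at this
    linarith
  · rw [norm_inv]
    exact inv_anti₀ hr (h τ τ.2)

theorem iotaR_apply {d V : ℂ} (hV : V ∈ rayU d) (τ : ℝ≥0) :
    iotaR d V τ = (V + (τ : ℝ) * d)⁻¹ := by
  obtain ⟨r, hr, h⟩ := hV
  have := iotaR_aux (by linarith) h
  exact mkB_apply this.1 this.2 τ

theorem norm_iotaR_le {d V : ℂ} {r : ℝ} (hr : 0 < r) (h : ∀ τ : ℝ, 0 ≤ τ → r ≤ ‖V + τ * d‖) :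
    ‖iotaR d V‖ ≤ r⁻¹ :=
  norm_mkB_le (iotaR_aux hr h).1 (iotaR_aux hr h).2

theorem norm_iotaR_le' {d V : ℂ} (hV : V ∈ rayU d) : ‖iotaR d V‖ ≤ 1 / 1000 := by
  obtain ⟨r, hr, h⟩ := hV
  refine (norm_iotaR_le (by linarith) h).trans ?_
  rw [one_div]
  exact inv_anti₀ (by norm_num) hr.le

theorem differentiableOn_iotaR (d : ℂ) : DifferentiableOn ℂ (iotaR d) (rayU d) := by
  refine differentiableOn_of_resolvent (c := 1) (isOpen_rayU d) (fun V hV => norm_iotaR_le' hV)
    fun V hV W hW => ?_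
  ext τ
  have h1 : V + (τ : ℝ) * d ≠ 0 := fun h0 => by
    have := norm_gt_of_mem_rayU (add_mem_rayU hV τ.2)
    rw [show ((τ.1 : ℝ) : ℂ) = ((τ : ℝ) : ℂ) from rfl, h0, norm_zero] at this
    linarith
  have h2 : W + (τ : ℝ) * d ≠ 0 := fun h0 => by
    have := norm_gt_of_mem_rayU (add_mem_rayU hW τ.2)
    rw [show ((τ.1 : ℝ) : ℂ) = ((τ : ℝ) : ℂ) from rfl, h0, norm_zero] at this
    linarith
  simp only [one_mul, BoundedContinuousFunction.sub_apply, BoundedContinuousFunction.smul_apply,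
    BoundedContinuousFunction.mul_apply, iotaR_apply hV, iotaR_apply hW, smul_eq_mul]
  field_simp
  ring

theorem shiftB_iotaR {d V : ℂ} (hV : V ∈ rayU d) (t : ℝ≥0) :
    shiftB t (iotaR d V) = iotaR d (V + (t : ℝ) * d) := by
  ext τ
  rw [shiftB_apply, iotaR_apply hV, iotaR_apply (add_mem_rayU hV (NNReal.coe_nonneg t))]
  push_cast
  congr 1
  ring

/-- **The solution bounded along the rays in direction `d`.** -/
theorem exists_raySol {d : ℂ} (hd : d.re = -1) (hd' : ‖d‖ ≤ 3 / 2) :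
    ∃ y : ℂ → ℂ, ∀ V ∈ rayU d, HasDerivAt y (G V (1 + y V)) V ∧
      ∀ r : ℝ, 0 < r → (∀ τ : ℝ, 0 ≤ τ → r ≤ ‖V + τ * d‖) → ‖y V‖ ≤ 9 / 2 * r⁻¹ := by
  obtain ⟨φ, hφd, hφ⟩ := exists_algSol (A := BB) (c := 1) (e := 0) (I := Jop hd hd') (by simp)
    (by simp) (norm_Jop_le hd hd')
  have hmem : ∀ V ∈ rayU d, ((0 : ℂ), iotaR d V) ∈ algU BB := fun V hV =>
    ⟨mem_ball_self (by norm_num), mem_ball_zero_iff.2 (by linarith [norm_iotaR_le' hV])⟩
  set y : ℂ → ℂ := fun V => (φ (0, iotaR d V)).1 0 with hy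
  have hyd : DifferentiableOn ℂ y (rayU d) := by
    have h1 : DifferentiableOn ℂ (fun V => φ (0, iotaR d V)) (rayU d) :=
      hφd.comp ((differentiableOn_const _).prodMk (differentiableOn_iotaR d)) hmem
    exact (BoundedContinuousFunction.evalCLM ℂ (0 : ℝ≥0)).differentiable.comp_differentiableOn
      h1.fst
  have hshift : ∀ V ∈ rayU d, ∀ t : ℝ≥0, y (V + (t : ℝ) * d) = (φ (0, iotaR d V)).1 t := by
    intro V hV t
    have hV' := add_mem_rayU hV (NNReal.coe_nonneg t)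
    obtain ⟨h1, h2, -⟩ := hφ _ (hmem V hV)
    obtain ⟨h3, h4, -⟩ := hφ _ (hmem _ hV')
    set x := φ (0, iotaR d V)
    have h5 : φ (0, iotaR d (V + (t : ℝ) * d)) = (shiftB t x.1, shiftB t x.2) := by
      refine algSol_unique (c := 1) (e := 0) (I := Jop hd hd') (by simp) (norm_Jop_le hd hd')
        (p := (0, iotaR d (V + (t : ℝ) * d))) (by linarith [norm_iotaR_le' hV']) (by linarith) ?_
        h3 ?_
      · rw [Prod.norm_def]
        refine max_le ?_ ?_
        · linarith [norm_shiftB_le t x.1, norm_fst_le x]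
        · linarith [norm_shiftB_le t x.2, norm_snd_le x]
      · rw [← shiftB_iotaR hV]
        have e1 := congrArg Prod.fst h1
        have e2 := congrArg Prod.snd h1
        simp only [algT, smul_zero, zero_add] at e1 e2 ⊢
        refine Prod.ext ?_ ?_
        · simp only
          conv_rhs => rw [← e1, ← Jop_shift]
          congr 1
        · simp only
          conv_rhs => rw [← e2]
          rfl
    simp only [hy, h5, shiftB_apply, zero_add]
  refine ⟨y, fun V hV => ⟨?_, fun r hr h => ?_⟩⟩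
  · obtain ⟨h1, h2, -⟩ := hφ _ (hmem V hV)
    set x := φ (0, iotaR d V) with hx
    set F : BB := (1 / 2 : ℂ) • ((1 + 1 * x.1) ^ 2 * iotaR d V + 1 * x.2 ^ 2) with hF
    have e1 : x.1 = Jop hd hd' F := by
      have := congrArg Prod.fst h1
      simpa only [algT, smul_zero, zero_add] using this.symm
    have e2 : x.2 0 = y V / 2 - F 0 := by
      have := congrArg (fun z : BB × BB => z.2 0) h1
      simp only [algT] at this
      rw [← this, hF]
      simp only [BoundedContinuousFunction.smul_apply, BoundedContinuousFunction.sub_apply,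
        smul_eq_mul, hy, ← hx]
      ring
    have e3 : F 0 = ((1 + y V) ^ 2 * V⁻¹ + x.2 0 ^ 2) / 2 := by
      simp only [hF, BoundedContinuousFunction.smul_apply, BoundedContinuousFunction.add_apply,
        BoundedContinuousFunction.mul_apply, BoundedContinuousFunction.pow_apply,
        iotaR_apply hV, smul_eq_mul, hy, ← hx]
      simp
      ring
    have hsg : sg V (1 + y V) = 1 + x.2 0 := by
      refine sg_eq_of ?_ ?_
      · linarith [x.2.norm_coe_le_norm 0, norm_snd_le x]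
      · rw [div_eq_mul_inv]
        linear_combination 2 * e2 - 2 * e3
    have hV0 : y V = Jf d F 0 := by
      simp only [hy, ← hx, e1, Jop_apply, NNReal.coe_zero]
    have hD := (hyd.differentiableAt ((isOpen_rayU d).mem_nhds hV)).hasDerivAt
    have hD1 : HasDerivAt (fun t : ℝ => y (V + t * d)) (deriv y V * d) 0 := by
      have h3 : HasDerivAt (fun t : ℂ => V + t * d) d ((0 : ℝ) : ℂ) := by
        simpa using ((hasDerivAt_id ((0 : ℝ) : ℂ)).mul_const d).const_add V
      have h4 : HasDerivAt y (deriv y V) (V + ((0 : ℝ) : ℂ) * d) := by simpa using hD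
      exact (h4.comp ((0 : ℝ) : ℂ) h3).comp_ofReal
    have hD2 : HasDerivWithinAt (fun t : ℝ => y (V + t * d)) (d * (ext F 0 - Jf d F 0 / 2))
        (Ici 0) 0 := by
      refine (hasDerivAt_Jf hd F 0).hasDerivWithinAt.congr_of_mem (fun t ht => ?_) self_mem_Ici
      have := hshift V hV t.toNNReal
      rw [← hx, e1, Jop_apply, Real.coe_toNNReal t ht] at this
      exact this
    have h6 := (uniqueDiffWithinAt_Ici (0 : ℝ)).eq_deriv _ hD1.hasDerivWithinAt hD2
    have hd0 : d ≠ 0 := fun h0 => by simp [h0] at hd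
    have h7 : ext F 0 = F 0 := by simp [ext]
    refine hD.congr_deriv (mul_right_cancel₀ hd0 ?_)
    rw [h6, h7, ← hV0, G, hsg, e2]
    ring
  · obtain ⟨-, -, h3⟩ := hφ _ (hmem V hV)
    have h4 := (φ (0, iotaR d V)).1.norm_coe_le_norm 0
    have h5 := norm_fst_le (φ (0, iotaR d V))
    have h6 := norm_iotaR_le hr h
    simp only [norm_zero, mul_zero, zero_add] at h3
    change ‖(φ (0, iotaR d V)).1 0‖ ≤ _
    linarith

end Vale.Agent.P218IN
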