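import Mathlib

/-! # The inner equation `dY/dV = 1 - √(Y (1 - Y/V))`: pointwise facts

`V = R²` is the squared radius of a translating surface of revolution and `Y = P²` the squared
slope of the action. -/

open Set Metric Filter Topology Complex

namespace Vale.Agent.P218IN

/-- `√(Y (1 - Y / V))` -/
noncomputable def sg (V Y : ℂ) : ℂ := Complex.sqrt (Y * (1 - Y / V))

/-- the right hand side of the inner equation -/
noncomputable def G (V Y : ℂ) : ℂ := 1 - sg V Y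

theorem sqrt_sq' (z : ℂ) : Complex.sqrt z ^ 2 = z := by
  simp [Complex.sqrt]

theorem sqrt_re_nonneg (z : ℂ) : 0 ≤ (Complex.sqrt z).re := by
  rw [Complex.sqrt, Complex.cpow_inv_two_re]
  exact Real.sqrt_nonneg _

theorem sqrt_eq_of_sq {s z : ℂ} (hs : 0 < s.re) (h : s ^ 2 = z) : Complex.sqrt z = s := by
  have h1 : (Complex.sqrt z - s) * (Complex.sqrt z + s) = 0 := by
    have := sqrt_sq' z
    linear_combination this - h
  rcases mul_eq_zero.1 h1 with h2 | h2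
  · exact sub_eq_zero.1 h2
  · have h3 := congrArg Complex.re h2
    simp only [add_re, zero_re] at h3
    linarith [sqrt_re_nonneg z]

theorem re_pos_of_norm_sub_one_lt {s : ℂ} (h : ‖s - 1‖ < 1) : 0 < s.re := by
  have := (abs_le.1 (Complex.abs_re_le_norm (s - 1))).1
  simp only [sub_re, one_re] at this
  linarith

theorem re_ge_of_norm_sub_one_le {s : ℂ} {r : ℝ} (h : ‖s - 1‖ ≤ r) : 1 - r ≤ s.re := by
  have := (abs_le.1 (Complex.abs_re_le_norm (s - 1))).1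
  simp only [sub_re, one_re] at this
  linarith

theorem norm_sqrt_sub_one_le (z : ℂ) : ‖Complex.sqrt z - 1‖ ≤ ‖z - 1‖ := by
  have h1 : (Complex.sqrt z - 1) * (Complex.sqrt z + 1) = z - 1 := by
    have := sqrt_sq' z
    linear_combination this
  have h2 : 1 ≤ ‖Complex.sqrt z + 1‖ := by
    refine le_trans ?_ (Complex.re_le_norm _)
    simp only [add_re, one_re]
    linarith [sqrt_re_nonneg z]
  rw [← h1, norm_mul]
  exact le_mul_of_one_le_right (norm_nonneg _) h2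

theorem sg_sq (V Y : ℂ) : sg V Y ^ 2 = Y * (1 - Y / V) := sqrt_sq' _

theorem arg_sub_one_le {V Y : ℂ} (hY : ‖Y - 1‖ ≤ 1 / 40) :
    ‖Y * (1 - Y / V) - 1‖ ≤ ‖Y - 1‖ + 11 / 10 * ‖V⁻¹‖ := by
  have e : Y * (1 - Y / V) - 1 = (Y - 1) - Y ^ 2 * V⁻¹ := by rw [div_eq_mul_inv]; ring
  have h1 : ‖Y‖ ≤ 41 / 40 := by
    have := norm_add_le (Y - 1) 1
    simp only [sub_add_cancel, norm_one] at this
    linarith
  rw [e]
  refine (norm_sub_le _ _).trans ?_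
  rw [norm_mul, norm_pow]
  have : ‖Y‖ ^ 2 ≤ 11 / 10 := by nlinarith [norm_nonneg Y]
  gcongr

theorem norm_sg_sub_one_le {V Y : ℂ} (hY : ‖Y - 1‖ ≤ 1 / 40) :
    ‖sg V Y - 1‖ ≤ ‖Y - 1‖ + 11 / 10 * ‖V⁻¹‖ :=
  (norm_sqrt_sub_one_le _).trans (arg_sub_one_le hY)

theorem norm_sg_sub_one_le' {V Y : ℂ} (hY : ‖Y - 1‖ ≤ 1 / 40) (hV : ‖V⁻¹‖ ≤ 1 / 200) :
    ‖sg V Y - 1‖ ≤ 1 / 30 := by
  linarith [norm_sg_sub_one_le (V := V) hY]

theorem arg_mem_slitPlane {V Y : ℂ} (hY : ‖Y - 1‖ ≤ 1 / 40) (hV : ‖V⁻¹‖ ≤ 1 / 200) :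
    Y * (1 - Y / V) ∈ slitPlane :=
  Or.inl (re_pos_of_norm_sub_one_lt (by linarith [arg_sub_one_le (V := V) hY]))

theorem sg_eq_of {V Y σ : ℂ} (hσ : ‖σ‖ < 1) (h : (1 + σ) ^ 2 = Y * (1 - Y / V)) :
    sg V Y = 1 + σ :=
  sqrt_eq_of_sq (re_pos_of_norm_sub_one_lt (by simpa using hσ)) h

theorem sg_ne_zero {V Y : ℂ} (hY : ‖Y - 1‖ ≤ 1 / 40) (hV : ‖V⁻¹‖ ≤ 1 / 200) : sg V Y ≠ 0 := by
  intro h
  have := norm_sg_sub_one_le' hY hV
  rw [h] at this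
  norm_num at this

theorem ne_zero_of_near {Y : ℂ} (hY : ‖Y - 1‖ ≤ 1 / 40) : Y ≠ 0 := by
  intro h
  rw [h] at hY
  norm_num at hY

/-- the difference quotient of `G` in `Y` is close to `-1/2` -/
theorem G_sub {V Y₁ Y₂ : ℂ} (h₁ : ‖Y₁ - 1‖ ≤ 1 / 40) (h₂ : ‖Y₂ - 1‖ ≤ 1 / 40)
    (hV : ‖V⁻¹‖ ≤ 1 / 200) :
    ∃ a : ℂ, ‖a + 1 / 2‖ ≤ 1 / 10 ∧ G V Y₁ - G V Y₂ = a * (Y₁ - Y₂) := by
  have b₁ := norm_sg_sub_one_le' h₁ hV
  have b₂ := norm_sg_sub_one_le' h₂ hV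
  set s₁ := sg V Y₁
  set s₂ := sg V Y₂
  have hsum : 29 / 15 ≤ ‖s₁ + s₂‖ := by
    refine le_trans ?_ (Complex.re_le_norm _)
    rw [add_re]
    linarith [re_ge_of_norm_sub_one_le b₁, re_ge_of_norm_sub_one_le b₂]
  have hne : s₁ + s₂ ≠ 0 := by
    intro h
    rw [h] at hsum
    norm_num at hsum
  refine ⟨-(1 - (Y₁ + Y₂) * V⁻¹) / (s₁ + s₂), ?_, ?_⟩
  · have e : -(1 - (Y₁ + Y₂) * V⁻¹) / (s₁ + s₂) + 1 / 2
        = (((s₁ - 1) + (s₂ - 1)) / 2 + ((Y₁ - 1) + (Y₂ - 1) + 2) * V⁻¹) / (s₁ + s₂) := by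
      field_simp
      ring
    rw [e, norm_div, div_le_iff₀ (by linarith)]
    refine (norm_add_le _ _).trans ?_
    have c1 : ‖((s₁ - 1) + (s₂ - 1)) / 2‖ ≤ 1 / 30 := by
      rw [norm_div]
      have := norm_add_le (s₁ - 1) (s₂ - 1)
      simp only [Complex.norm_ofNat]
      linarith
    have c2 : ‖((Y₁ - 1) + (Y₂ - 1) + 2) * V⁻¹‖ ≤ 3 * (1 / 200) := by
      rw [norm_mul]
      have := norm_add_le ((Y₁ - 1) + (Y₂ - 1)) 2
      have := norm_add_le (Y₁ - 1) (Y₂ - 1)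
      simp only [Complex.norm_ofNat] at *
      gcongr
      linarith
    linarith
  · have q₁ := sg_sq V Y₁
    have q₂ := sg_sq V Y₂
    rw [div_eq_mul_inv] at q₁ q₂
    simp only [G]
    change 1 - s₁ - (1 - s₂) = _
    field_simp
    change s₁ ^ 2 = _ at q₁
    change s₂ ^ 2 = _ at q₂
    linear_combination q₂ - q₁

theorem G_lip {V Y₁ Y₂ : ℂ} (h₁ : ‖Y₁ - 1‖ ≤ 1 / 40) (h₂ : ‖Y₂ - 1‖ ≤ 1 / 40)
    (hV : ‖V⁻¹‖ ≤ 1 / 200) : ‖G V Y₁ - G V Y₂‖ ≤ ‖Y₁ - Y₂‖ := by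
  obtain ⟨a, ha, h⟩ := G_sub h₁ h₂ hV
  rw [h, norm_mul]
  have : ‖a‖ ≤ 1 := by
    have := norm_sub_le (a + 1 / 2) (1 / 2)
    simp only [add_sub_cancel_right, norm_div, norm_one, Complex.norm_ofNat] at this
    linarith
  exact mul_le_of_le_one_left (norm_nonneg _) this

theorem differentiableAt_sg {p : ℂ × ℂ} (hY : ‖p.2 - 1‖ ≤ 1 / 40) (hV : ‖p.1⁻¹‖ ≤ 1 / 200)
    (h0 : p.1 ≠ 0) : DifferentiableAt ℂ (fun q : ℂ × ℂ => sg q.1 q.2) p := by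
  unfold sg
  refine (Complex.differentiableAt_sqrt (arg_mem_slitPlane hY hV)).comp p
    (f := fun q : ℂ × ℂ => q.2 * (1 - q.2 / q.1)) ?_
  fun_prop (disch := exact h0)

/-- the derivative of `sg` in `Y` -/
theorem hasDerivAt_sg {V Y : ℂ} (hY : ‖Y - 1‖ ≤ 1 / 40) (hV : ‖V⁻¹‖ ≤ 1 / 200) :
    HasDerivAt (fun y => sg V y) ((1 - 2 * Y / V) / (2 * sg V Y)) Y := by
  have h1 : HasDerivAt (fun y : ℂ => y * (1 - y / V)) (1 - 2 * Y / V) Y := by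
    have := (hasDerivAt_id Y).mul (((hasDerivAt_id Y).div_const V).const_sub 1)
    refine this.congr_deriv ?_
    simp only [id]
    ring
  have hd : DifferentiableAt ℂ (fun y => sg V y) Y :=
    (Complex.differentiableAt_sqrt (arg_mem_slitPlane hY hV)).comp Y h1.differentiableAt
  have h2 := hd.hasDerivAt.pow 2
  have h3 : (fun y => sg V y) ^ 2 = fun y : ℂ => y * (1 - y / V) := by
    funext y
    exact sg_sq V y
  rw [h3] at h2
  have h4 := h2.unique h1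
  have h5 := sg_ne_zero hY hV
  refine hd.hasDerivAt.congr_deriv ?_
  rw [← h4]
  field_simp
  simp

end Vale.Agent.P218IN
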