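import Vale.Agent.P218IN.Alg
import Vale.Agent.P218IN.Sq

/-! # Solutions of the inner equation that stay bounded along rays going to the left -/

open Set Metric Filter Topology Complex MeasureTheory
open scoped NNReal BoundedContinuousFunction

namespace Vale.Agent.P218IN

/-- bounded continuous functions on the half line -/
abbrev BB : Type := ℝ≥0 →ᵇ ℂ

open Classical in
/-- a bounded continuous function as an element of `BB` -/
noncomputable def mkB (f : ℝ≥0 → ℂ) : BB :=
  if h : Continuous f ∧ ∃ C, ∀ x, ‖f x‖ ≤ C then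
    BoundedContinuousFunction.ofNormedAddCommGroup f h.1 h.2.choose h.2.choose_spec else 0

theorem mkB_apply {f : ℝ≥0 → ℂ} (hc : Continuous f) {C : ℝ} (hb : ∀ x, ‖f x‖ ≤ C) (x : ℝ≥0) :
    mkB f x = f x := by
  have h : Continuous f ∧ ∃ C, ∀ x, ‖f x‖ ≤ C := ⟨hc, C, hb⟩
  simp [mkB, h]

theorem norm_mkB_le {f : ℝ≥0 → ℂ} (hc : Continuous f) {C : ℝ} (hb : ∀ x, ‖f x‖ ≤ C) :
    ‖mkB f‖ ≤ C := by
  rw [BoundedContinuousFunction.norm_le ((norm_nonneg _).trans (hb 0))]
  intro x
  rw [mkB_apply hc hb]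
  exact hb x

/-- extension to the real line -/
noncomputable def ext (f : BB) (s : ℝ) : ℂ := f s.toNNReal

theorem continuous_ext (f : BB) : Continuous (ext f) :=
  f.continuous.comp continuous_real_toNNReal

theorem norm_ext_le (f : BB) (s : ℝ) : ‖ext f s‖ ≤ ‖f‖ := f.norm_coe_le_norm _

theorem ext_coe (f : BB) (τ : ℝ≥0) : ext f τ = f τ := by simp [ext]

/-- the shift -/
noncomputable def shiftB (t : ℝ≥0) (f : BB) : BB :=
  f.compContinuous ⟨fun τ => τ + t, by fun_prop⟩

theorem shiftB_apply (t : ℝ≥0) (f : BB) (τ : ℝ≥0) : shiftB t f τ = f (τ + t) := rfl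

theorem norm_shiftB_le (t : ℝ≥0) (f : BB) : ‖shiftB t f‖ ≤ ‖f‖ :=
  BoundedContinuousFunction.norm_compContinuous_le _ _

section J

variable {d : ℂ}

theorem norm_cexp_half (hd : d.re = -1) (s : ℝ) :
    ‖Complex.exp (d / 2 * s)‖ = Real.exp (-(1 / 2) * s) := by
  rw [Complex.norm_exp]
  congr 1
  simp [hd]
  ring

theorem integrableOn_J (hd : d.re = -1) (f : BB) (τ : ℝ) :
    IntegrableOn (fun s : ℝ => Complex.exp (d / 2 * s) * ext f s) (Ioi τ) := by
  have h1 : IntegrableOn (fun s : ℝ => Complex.exp (d / 2 * s)) (Ioi τ) :=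
    integrableOn_exp_mul_complex_Ioi (by simp [hd]; norm_num) τ
  exact h1.mul_bdd (continuous_ext f).aestronglyMeasurable
    (Eventually.of_forall fun s => norm_ext_le f s)

/-- the bounded solution of `η' = d (f - η / 2)` -/
noncomputable def Jf (d : ℂ) (f : BB) (τ : ℝ) : ℂ :=
  -d * Complex.exp (-(d / 2 * τ)) * ∫ s in Ioi τ, Complex.exp (d / 2 * s) * ext f s

theorem hasDerivAt_Jf (hd : d.re = -1) (f : BB) (τ : ℝ) :
    HasDerivAt (Jf d f) (d * (ext f τ - Jf d f τ / 2)) τ := by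
  set g : ℝ → ℂ := fun s => Complex.exp (d / 2 * s) * ext f s with hg
  have hgc : Continuous g := by
    have := continuous_ext f
    fun_prop
  have h1 : ∀ t : ℝ, ∫ s in Ioi t, g s = (∫ s in Ioi 0, g s) - ∫ s in (0 : ℝ)..t, g s := by
    intro t
    rw [← intervalIntegral.integral_Ioi_sub_Ioi' (integrableOn_J hd f 0) (integrableOn_J hd f t)]
    ring
  have h2 : HasDerivAt (fun t : ℝ => ∫ s in Ioi t, g s) (-g τ) τ := by
    rw [funext h1]
    exact (hgc.integral_hasStrictDerivAt 0 τ).hasDerivAt.const_sub _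
  have h3 : HasDerivAt (fun t : ℝ => -d * Complex.exp (-(d / 2 * t)))
      (-d * (Complex.exp (-(d / 2 * τ)) * -(d / 2))) τ := by
    have := (((hasDerivAt_id (τ : ℂ)).const_mul (d / 2)).neg.cexp.const_mul (-d)).comp_ofReal
    simpa using this
  refine (h3.mul h2).congr_deriv ?_
  simp only [Jf, hg]
  have h4 : Complex.exp (-(d / 2 * τ)) * Complex.exp (d / 2 * τ) = 1 := by
    rw [← Complex.exp_add]
    simp
  linear_combination (d * ext f τ) * h4

theorem norm_Jf_le (hd : d.re = -1) (hd' : ‖d‖ ≤ 3 / 2) (f : BB) (τ : ℝ) :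
    ‖Jf d f τ‖ ≤ 3 * ‖f‖ := by
  have h1 : ‖∫ s in Ioi τ, Complex.exp (d / 2 * s) * ext f s‖
      ≤ ∫ s in Ioi τ, Real.exp (-(1 / 2) * s) * ‖f‖ := by
    refine norm_integral_le_of_norm_le
      ((integrableOn_exp_mul_Ioi (by norm_num) τ).mul_const _) (Eventually.of_forall fun s => ?_)
    rw [norm_mul, norm_cexp_half hd]
    gcongr
    exact norm_ext_le f s
  rw [integral_mul_const, integral_exp_mul_Ioi (by norm_num)] at h1
  have h2 : ‖Complex.exp (-(d / 2 * τ))‖ * Real.exp (-(1 / 2) * τ) = 1 := by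
    rw [← norm_cexp_half hd, ← norm_mul, ← Complex.exp_add]
    simp
  rw [Jf, norm_mul, norm_mul, norm_neg]
  calc ‖d‖ * ‖Complex.exp (-(d / 2 * τ))‖ * ‖∫ s in Ioi τ, Complex.exp (d / 2 * s) * ext f s‖
      ≤ 3 / 2 * ‖Complex.exp (-(d / 2 * τ))‖ * (-Real.exp (-(1 / 2) * τ) / -(1 / 2) * ‖f‖) := by
        gcongr
    _ = 3 * (‖Complex.exp (-(d / 2 * τ))‖ * Real.exp (-(1 / 2) * τ)) * ‖f‖ := by ring
    _ = _ := by rw [h2, mul_one]

theorem continuous_Jf (hd : d.re = -1) (f : BB) : Continuous (Jf d f) :=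
  continuous_iff_continuousAt.2 fun τ => (hasDerivAt_Jf hd f τ).continuousAt

theorem mkB_Jf (hd : d.re = -1) (hd' : ‖d‖ ≤ 3 / 2) (f : BB) (τ : ℝ≥0) :
    mkB (fun τ : ℝ≥0 => Jf d f τ) τ = Jf d f τ :=
  mkB_apply ((continuous_Jf hd f).comp NNReal.continuous_coe) (fun τ => norm_Jf_le hd hd' f τ) τ

/-- the operator `J` -/
noncomputable def Jop (hd : d.re = -1) (hd' : ‖d‖ ≤ 3 / 2) : BB →L[ℂ] BB :=
  LinearMap.mkContinuous
    { toFun := fun f => mkB fun τ : ℝ≥0 => Jf d f τ
      map_add' := fun f g => by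
        ext τ
        simp only [BoundedContinuousFunction.add_apply, mkB_Jf hd hd']
        simp only [Jf]
        rw [← mul_add, ← integral_add (integrableOn_J hd f τ) (integrableOn_J hd g τ)]
        simp only [ext, BoundedContinuousFunction.add_apply, mul_add]
      map_smul' := fun c f => by
        ext τ
        simp only [BoundedContinuousFunction.smul_apply, mkB_Jf hd hd']
        simp only [BoundedContinuousFunction.smul_apply, Jf, RingHom.id_apply, smul_eq_mul, ext]
        rw [mul_left_comm c, ← integral_const_mul c]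
        congr 2
        funext s
        ring }
    3 fun f => norm_mkB_le ((continuous_Jf hd f).comp NNReal.continuous_coe)
      fun τ => norm_Jf_le hd hd' f τ

theorem Jop_apply (hd : d.re = -1) (hd' : ‖d‖ ≤ 3 / 2) (f : BB) (τ : ℝ≥0) :
    Jop hd hd' f τ = Jf d f τ := mkB_Jf hd hd' f τ

theorem norm_Jop_le (hd : d.re = -1) (hd' : ‖d‖ ≤ 3 / 2) : ‖Jop hd hd'‖ ≤ 3 :=
  LinearMap.mkContinuous_norm_le _ (by norm_num) _

theorem integral_Ioi_add_right (g : ℝ → ℂ) (a t : ℝ) :
    ∫ s in Ioi a, g (s + t) = ∫ s in Ioi (a + t), g s := by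
  have := (measurePreserving_add_right volume t).setIntegral_preimage_emb
    (measurableEmbedding_addRight t) g (Ioi (a + t))
  rw [← this]
  congr 2
  ext s
  simp

theorem Jop_shift (hd : d.re = -1) (hd' : ‖d‖ ≤ 3 / 2) (t : ℝ≥0) (f : BB) :
    Jop hd hd' (shiftB t f) = shiftB t (Jop hd hd' f) := by
  ext τ
  rw [shiftB_apply, Jop_apply, Jop_apply, Jf, Jf, NNReal.coe_add, ← integral_Ioi_add_right]
  have h1 : ∫ s in Ioi (τ : ℝ), Complex.exp (d / 2 * ((s + t : ℝ) : ℂ)) * ext f (s + t)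
      = Complex.exp (d / 2 * t) * ∫ s in Ioi (τ : ℝ), Complex.exp (d / 2 * s)
        * ext (shiftB t f) s := by
    rw [← integral_const_mul]
    refine setIntegral_congr_fun measurableSet_Ioi fun s hs => ?_
    have hs0 : 0 ≤ s := τ.2.trans (le_of_lt hs)
    have e : (s + t).toNNReal = s.toNNReal + t := by
      rw [Real.toNNReal_add hs0 (NNReal.coe_nonneg t)]
      simp
    simp only [ext, shiftB_apply, e]
    push_cast
    rw [mul_add, Complex.exp_add]
    ring
  rw [h1]
  have h2 : Complex.exp (-(d / 2 * (((τ : ℝ) + t : ℝ) : ℂ))) * Complex.exp (d / 2 * t)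
      = Complex.exp (-(d / 2 * τ)) := by
    rw [← Complex.exp_add]
    push_cast
    congr 1
    ring
  rw [← h2]
  ring

end J

end Vale.Agent.P218IN
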