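import Vale.Agent.P218IN.Stokes

/-! # The Stokes constant in the variable `T = Hb V` -/

open Set Metric Filter Topology Complex MeasureTheory

namespace Vale.Agent.P218IN

theorem hasDerivAt_kap_c {Y : ℂ → ℂ} {Y' V : ℂ} (hY : HasDerivAt Y Y' V) (hm : (V, Y V) ∈ Om) :
    HasDerivAt (fun z => kap (z, Y z)) (mu (V, Y V) * (Y' - G V (Y V))) V := by
  have := (exists_kap.choose_spec _ hm).comp_hasDerivAt V ((hasDerivAt_id V).prodMk hY)
  refine this.congr_deriv ?_
  simp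
  ring

theorem tendsto_kap_of_sol {y : ℂ → ℂ} {s : Set ℂ} (hs : IsOpen s) (hc : Convex ℝ s)
    (hy : ∀ V ∈ s, 400 < V.re ∧ Sol y V ∧ ‖y V‖ < 1 / 200) {V₀ : ℂ} (h0 : V₀ ∈ s) {α : Type*}
    {l : Filter α} {V Y : α → ℂ} (hm : ∀ᶠ x in l, V x ∈ s ∧ ‖Y x - 1‖ < 1 / 200)
    (ht : Tendsto (fun x => Real.exp ((V x).re / 2) * ‖V x‖⁻¹) l (𝓝 0)) :
    Tendsto (fun x => kap (V x, Y x)) l (𝓝 (kap (V₀, 1 + y V₀))) := by
  have hom : ∀ V ∈ s, (V, 1 + y V) ∈ Om := fun V hV => ⟨(hy V hV).1, by simpa using (hy V hV).2.2⟩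
  have hd : ∀ V ∈ s, HasDerivAt (fun z => kap (z, 1 + y z)) 0 V := fun V hV => by
    simpa using hasDerivAt_kap_c ((hy V hV).2.1.1.const_add 1) (hom V hV)
  rw [tendsto_iff_norm_sub_tendsto_zero]
  refine squeeze_zero' (Eventually.of_forall fun _ => norm_nonneg _) ?_ ht
  filter_upwards [hm] with x hx
  rw [← hs.is_const_of_deriv_eq_zero hc.isPreconnected
    (fun V hV => (hd V hV).differentiableAt.differentiableWithinAt) (fun V hV => (hd V hV).deriv)
    hx.1 h0]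
  refine (norm_kap_sub_le ⟨(hy _ hx.1).1, hx.2⟩ (hom _ hx.1)).trans ?_
  refine mul_le_of_le_one_right (by positivity) ?_
  rw [← sub_sub]
  linarith [norm_sub_le (Y x - 1) (y (V x)), hx.2, (hy _ hx.1).2.2]

/-- the two limits of the first integral, independent of the curve -/
theorem exists_kap_limits' : ∃ kp km : ℂ, kp ≠ km ∧ ∀ V Y : ℝ → ℂ, ∀ l : Filter ℝ,
    Tendsto (fun x => Real.exp ((V x).re / 2) * ‖V x‖⁻¹) l (𝓝 0) →
    (∀ x, (V x, Y x) ∈ Om) →
    ((∀ᶠ x in l, 2000 < (V x).im) → Tendsto (fun x => kap (V x, Y x)) l (𝓝 kp)) ∧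
    ((∀ᶠ x in l, (V x).im < -2000) → Tendsto (fun x => kap (V x, Y x)) l (𝓝 km)) := by
  obtain ⟨yp, ym, hp, hm, -, -, hne⟩ := exists_pm
  set sp : Set ℂ := {V | 400 < V.re} ∩ {V | 2000 < V.re + V.im}
  set sm : Set ℂ := {V | 400 < V.re} ∩ {V | 2000 < V.re - V.im}
  have op : IsOpen sp := (isOpen_lt continuous_const continuous_re).inter
    (isOpen_lt continuous_const (by fun_prop))
  have om : IsOpen sm := (isOpen_lt continuous_const continuous_re).inter
    (isOpen_lt continuous_const (by fun_prop))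
  have cp : Convex ℝ sp := (convex_halfSpace_re_gt 400).inter
    (convex_halfSpace_gt (f := fun V : ℂ => V.re + V.im)
      ⟨fun x y => by simp; ring, fun c x => by simp; ring⟩ 2000)
  have cm : Convex ℝ sm := (convex_halfSpace_re_gt 400).inter
    (convex_halfSpace_gt (f := fun V : ℂ => V.re - V.im)
      ⟨fun x y => by simp; ring, fun c x => by simp; ring⟩ 2000)
  have hp' : ∀ V ∈ sp, 400 < V.re ∧ Sol yp V ∧ ‖yp V‖ < 1 / 200 := fun V hV =>
    ⟨hV.1, hp V (Or.inl (lt_abs.2 (Or.inl hV.2)))⟩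
  have hm' : ∀ V ∈ sm, 400 < V.re ∧ Sol ym V ∧ ‖ym V‖ < 1 / 200 := fun V hV =>
    ⟨hV.1, hm V (Or.inl (lt_abs.2 (Or.inl hV.2)))⟩
  have k1 : ((2001 : ℝ) : ℂ) ∈ sp := by constructor <;> simp <;> norm_num
  have k2 : ((2001 : ℝ) : ℂ) ∈ sm := by constructor <;> simp <;> norm_num
  refine ⟨kap ((2001 : ℝ), 1 + yp (2001 : ℝ)), kap ((2001 : ℝ), 1 + ym (2001 : ℝ)),
    fun h => hne 2001 (by norm_num) ?_, fun V Y l ht hom => ⟨fun h => ?_, fun h => ?_⟩⟩
  · refine add_left_cancel (kap_inj (V := ((2001 : ℝ) : ℂ)) ?_ ⟨k1.1, ?_⟩ ⟨k1.1, ?_⟩ h)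
    · rw [Complex.norm_real]
      norm_num
    · simpa using (hp' _ k1).2.2
    · simpa using (hm' _ k2).2.2
  · refine tendsto_kap_of_sol op cp hp' k1 ?_ ht
    filter_upwards [h] with x hx
    have h1 : 400 < (V x).re := (hom x).1
    exact ⟨⟨h1, by simp only [mem_ofPred_eq]; linarith⟩, (hom x).2⟩
  · refine tendsto_kap_of_sol om cm hm' k2 ?_ ht
    filter_upwards [h] with x hx
    have h1 : 400 < (V x).re := (hom x).1
    exact ⟨⟨h1, by simp only [mem_ofPred_eq]; linarith⟩, (hom x).2⟩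

theorem hasDerivAt_Hb {V : ℂ} (hV : 400 < V.re) : HasDerivAt Hb (deriv Hb V) V :=
  (differentiableOn_Hb.differentiableAt
    ((isOpen_lt continuous_const continuous_re).mem_nhds hV)).hasDerivAt

theorem norm_deriv_Hb_sub_le' {V : ℂ} (hV : 401 < V.re) : ‖deriv Hb V - 1 / 2‖ ≤ 1 / 5 := by
  have h1 := norm_deriv_Hb_sub_le hV
  have h2 := norm_inv_le_of_re (V := V) (by linarith)
  rw [norm_inv] at h2
  linarith

theorem Hb_contr {V₁ V₂ : ℂ} (h₁ : 401 < V₁.re) (h₂ : 401 < V₂.re) :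
    ‖(V₁ - 2 * Hb V₁) - (V₂ - 2 * Hb V₂)‖ ≤ 1 / 2 * ‖V₁ - V₂‖ := by
  refine (convex_halfSpace_re_gt 401).norm_image_sub_le_of_norm_hasDerivWithin_le
    (f := fun V => V - 2 * Hb V) (f' := fun V => 1 - 2 * deriv Hb V)
    (fun V hV => ((hasDerivAt_id V).fun_sub ((hasDerivAt_Hb (lt_trans (by norm_num)
      hV)).const_mul 2)).hasDerivWithinAt) (fun V hV => ?_) h₂ h₁
  rw [show 1 - 2 * deriv Hb V = -2 * (deriv Hb V - 1 / 2) by ring, norm_mul]
  simp only [norm_neg, Complex.norm_ofNat]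
  linarith [norm_deriv_Hb_sub_le' hV]

theorem Hb_lip {V₁ V₂ : ℂ} (h₁ : 401 < V₁.re) (h₂ : 401 < V₂.re) :
    ‖V₁ - V₂‖ ≤ 4 * ‖Hb V₁ - Hb V₂‖ := by
  have h3 := Hb_contr h₁ h₂
  have h4 := norm_add_le ((V₁ - 2 * Hb V₁) - (V₂ - 2 * Hb V₂)) (2 * (Hb V₁ - Hb V₂))
  rw [norm_mul, Complex.norm_ofNat, show (V₁ - 2 * Hb V₁) - (V₂ - 2 * Hb V₂) + 2 * (Hb V₁ - Hb V₂)
    = V₁ - V₂ by ring] at h4
  linarith

theorem norm_Hb_sub_le' {V : ℂ} (hV : 400 < V.re) :
    ‖Hb V - (V / 2 - Complex.log V / 2)‖ ≤ 1 / 5 := by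
  have h1 := norm_Hb_sub_le hV
  have h2 := norm_inv_le_of_re hV
  rw [norm_inv] at h2
  linarith

theorem abs_re_Hb {V : ℂ} (hV : 400 < V.re) :
    |(Hb V).re - (V.re / 2 - Real.log ‖V‖ / 2)| ≤ 1 / 5 := by
  have := (Complex.abs_re_le_norm _).trans (norm_Hb_sub_le' hV)
  simpa [Complex.log_re] using this

theorem abs_im_Hb {V : ℂ} (hV : 400 < V.re) : |(Hb V).im - V.im / 2| ≤ 2 := by
  have h1 := (Complex.abs_im_le_norm _).trans (norm_Hb_sub_le' hV)
  simp only [sub_im, div_ofNat_im, Complex.log_im] at h1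
  have h2 := abs_le.1 (Complex.abs_arg_le_pi V)
  have h3 := Real.pi_le_four
  have h4 := Real.pi_lt_d2
  rw [abs_le] at h1 ⊢
  constructor <;> linarith [h1.1, h1.2]

theorem norm_log_le {V : ℂ} (hV : 1 ≤ ‖V‖) : ‖Complex.log V‖ ≤ Real.log ‖V‖ + 4 := by
  refine (Complex.norm_le_abs_re_add_abs_im _).trans ?_
  rw [Complex.log_re, Complex.log_im, abs_of_nonneg (Real.log_nonneg hV)]
  linarith [Complex.abs_arg_le_pi V, Real.pi_le_four]

theorem log_le_quarter {x : ℝ} (hx : 0 < x) : Real.log x ≤ x / 4 + 2 := by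
  have h1 := Real.log_le_sub_one_of_pos (show 0 < x / 4 by positivity)
  have h2 := Real.log_le_sub_one_of_pos (show (0 : ℝ) < 4 by norm_num)
  rw [Real.log_div hx.ne' (by norm_num)] at h1
  linarith

theorem norm_Hb_le {V : ℂ} (hV : 400 < V.re) : ‖Hb V‖ ≤ ‖V‖ := by
  have h0 := norm_gt_of_re hV
  have h1 := norm_Hb_sub_le' hV
  have h2 := norm_add_le (Hb V - (V / 2 - Complex.log V / 2)) (V / 2 - Complex.log V / 2)
  have h3 := norm_sub_le (V / 2) (Complex.log V / 2)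
  simp only [sub_add_cancel, norm_div, Complex.norm_ofNat] at h2 h3
  linarith [norm_log_le (V := V) (by linarith), log_le_quarter (x := ‖V‖) (by linarith)]

theorem exp_re_le {V : ℂ} (hV : 400 < V.re) :
    Real.exp (V.re / 2) ≤ 2 * Real.exp (Hb V).re * ‖V‖ ^ (1 / 2 : ℝ) := by
  have h0 := norm_gt_of_re hV
  have h1 := (abs_le.1 (abs_re_Hb hV)).1
  have h2 : Real.exp (1 / 5) ≤ 2 := by
    have := Real.exp_bound_div_one_sub_of_interval (x := 1 / 5) (by norm_num) (by norm_num)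
    linarith
  rw [Real.rpow_def_of_pos (by linarith)]
  calc Real.exp (V.re / 2) ≤ Real.exp (1 / 5 + (Hb V).re + Real.log ‖V‖ * (1 / 2)) :=
        Real.exp_le_exp.2 (by linarith)
    _ ≤ _ := by
      rw [Real.exp_add, Real.exp_add]
      gcongr

theorem norm_Qb_le' {V : ℂ} (hV : 400 < V.re) :
    ‖Qb V‖ ≤ 4 * Real.exp (Hb V).re * ‖V‖ ^ (-(3 / 2) : ℝ) := by
  have h0 := norm_gt_of_re hV
  have e : ‖V‖ ^ (-(3 / 2) : ℝ) = ‖V‖ ^ (1 / 2 : ℝ) * ‖V‖⁻¹ ^ 2 := by
    rw [inv_pow, ← Real.rpow_natCast, ← Real.rpow_neg (by linarith), ← Real.rpow_add (by linarith)]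
    norm_num
  refine (norm_Qb_le hV).trans ?_
  rw [e]
  calc 2 * Real.exp (V.re / 2) * ‖V‖⁻¹ ^ 2
      ≤ 2 * (2 * Real.exp (Hb V).re * ‖V‖ ^ (1 / 2 : ℝ)) * ‖V‖⁻¹ ^ 2 := by
        gcongr
        exact exp_re_le hV
    _ = _ := by ring

theorem norm_Rr_le {V : ℂ} (hV : 400 < V.re) : ‖Rr V‖ ≤ 4 * ‖V‖ ^ (-(3 / 2) : ℝ) := by
  have h1 := norm_Qb_le' hV
  rw [← Rr_mul_exp hV, norm_mul, Complex.norm_exp] at h1
  refine le_of_mul_le_mul_right (h1.trans (le_of_eq ?_)) (Real.exp_pos (Hb V).re)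
  ring

theorem exists_Hb_eq {T : ℂ} (hT : 202 ≤ T.re) : ∃ V : ℂ, 402 ≤ V.re ∧ Hb V = T := by
  have hc : IsComplete {V : ℂ | 402 ≤ V.re} :=
    (isClosed_le continuous_const continuous_re).isComplete
  have hmt : MapsTo (fun V => V - 2 * Hb V + 2 * T) {V : ℂ | 402 ≤ V.re} {V : ℂ | 402 ≤ V.re} := by
    intro V hV
    have hV' : 400 < V.re := lt_of_lt_of_le (by norm_num) hV
    have h1 := (abs_le.1 (abs_re_Hb hV')).2
    have h2 := Real.log_nonneg (show 1 ≤ ‖V‖ by linarith [norm_gt_of_re hV'])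
    simp only [mem_ofPred_eq, add_re, sub_re, mul_re, re_ofNat, im_ofNat]
    linarith
  have hcon : ContractingWith (1 / 2) (hmt.restrict _ _ _) := by
    refine ⟨by norm_num, LipschitzWith.of_dist_le_mul fun x y => ?_⟩
    have := Hb_contr (V₁ := x) (V₂ := y) (lt_of_lt_of_le (by norm_num) x.2)
      (lt_of_lt_of_le (by norm_num) y.2)
    rw [Subtype.dist_eq, Subtype.dist_eq, dist_eq_norm, dist_eq_norm]
    simpa using this
  obtain ⟨V, hV, hfix, -⟩ := ContractingWith.exists_fixedPoint' hc hmt hcon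
    (x := 402) (by simp) (edist_ne_top _ _)
  refine ⟨V, hV, ?_⟩
  have : V - 2 * Hb V + 2 * T = V := hfix
  linear_combination -this / 2

open Classical in
/-- the inverse of `Hb` -/
noncomputable def Hinv (T : ℂ) : ℂ := if h : 202 ≤ T.re then (exists_Hb_eq h).choose else 402

theorem re_Hinv (T : ℂ) : 402 ≤ (Hinv T).re := by
  unfold Hinv
  split_ifs with h
  · exact (exists_Hb_eq h).choose_spec.1
  · simp

theorem re_Hinv' (T : ℂ) : 401 < (Hinv T).re := by linarith [re_Hinv T]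

theorem re_Hinv'' (T : ℂ) : 400 < (Hinv T).re := by linarith [re_Hinv T]

theorem Hb_Hinv {T : ℂ} (hT : 202 ≤ T.re) : Hb (Hinv T) = T := by
  rw [Hinv, dif_pos hT]
  exact (exists_Hb_eq hT).choose_spec.2

theorem norm_sub_Hinv_le {V T : ℂ} (hV : 401 < V.re) (hT : 202 ≤ T.re) :
    ‖V - Hinv T‖ ≤ 4 * ‖Hb V - T‖ := by
  simpa [Hb_Hinv hT] using Hb_lip hV (re_Hinv' T)

theorem hasDerivAt_Hinv {T : ℂ} (hT : 202 < T.re) :
    HasDerivAt Hinv (deriv Hb (Hinv T))⁻¹ T := by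
  have hn : ∀ᶠ z in 𝓝 T, 202 < z.re := (isOpen_lt continuous_const continuous_re).mem_nhds hT
  refine HasDerivAt.of_local_left_inverse ?_ (hasDerivAt_Hb (re_Hinv'' T)) (fun h => ?_)
    (hn.mono fun z hz => Hb_Hinv hz.le)
  · rw [ContinuousAt, tendsto_iff_norm_sub_tendsto_zero]
    refine squeeze_zero' (Eventually.of_forall fun _ => norm_nonneg _)
      (g := fun z => 4 * ‖z - T‖) (hn.mono fun z hz => ?_) ?_
    · simpa [Hb_Hinv hz.le] using norm_sub_Hinv_le (re_Hinv' z) hT.le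
    · simpa using (tendsto_iff_norm_sub_tendsto_zero.1 (tendsto_id (x := 𝓝 T))).const_mul 4
  · have := norm_deriv_Hb_sub_le' (re_Hinv' T)
    rw [h] at this
    norm_num at this

theorem differentiableAt_Rr {V : ℂ} (hV : 400 < V.re) : DifferentiableAt ℂ Rr V := by
  have h := (hasDerivAt_Qb hV).differentiableAt.mul (hasDerivAt_Hb hV).differentiableAt.neg.cexp
  refine h.congr_of_eventuallyEq ?_
  filter_upwards [(isOpen_lt continuous_const continuous_re).mem_nhds hV] with z hz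
  simp only [Pi.mul_apply, Pi.neg_apply]
  rw [← Rr_mul_exp hz, mul_assoc, ← Complex.exp_add]
  simp

/-- the residual as a function of `T = Hb V` -/
noncomputable def RT (T : ℂ) : ℂ := Rr (Hinv T)

theorem differentiableAt_RT {T : ℂ} (hT : 202 < T.re) : DifferentiableAt ℂ RT T :=
  (differentiableAt_Rr (re_Hinv'' T)).comp T (hasDerivAt_Hinv hT).differentiableAt

theorem rpow_Hinv_le {T : ℂ} (hT : 202 ≤ T.re) :
    ‖Hinv T‖ ^ (-(3 / 2) : ℝ) ≤ 4 * (1 + ‖T‖) ^ (-(3 / 2) : ℝ) := by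
  have h0 := norm_gt_of_re (re_Hinv'' T)
  have h1 := norm_Hb_le (re_Hinv'' T)
  rw [Hb_Hinv hT] at h1
  have h2 : ‖Hinv T‖ ^ (-(3 / 2) : ℝ) ≤ ((1 + ‖T‖) / 2) ^ (-(3 / 2) : ℝ) :=
    Real.rpow_le_rpow_of_nonpos (by positivity) (by linarith) (by norm_num)
  have h3 : (2 : ℝ) ^ (3 / 2 : ℝ) ≤ 2 ^ (2 : ℝ) :=
    Real.rpow_le_rpow_of_exponent_le (by norm_num) (by norm_num)
  rw [Real.div_rpow (by positivity) (by norm_num), Real.rpow_neg (x := 2) (by norm_num),
    div_inv_eq_mul, mul_comm] at h2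
  refine h2.trans ?_
  gcongr
  simpa [show (2 : ℝ) ^ 2 = 4 by norm_num] using h3

theorem norm_RT_le {T : ℂ} (hT : 202 ≤ T.re) : ‖RT T‖ ≤ 16 * (1 + ‖T‖) ^ (-(3 / 2) : ℝ) := by
  linarith [norm_Rr_le (re_Hinv'' T), rpow_Hinv_le hT, show ‖RT T‖ = ‖Rr (Hinv T)‖ from rfl]

theorem RT_mul_exp {T : ℂ} (hT : 202 ≤ T.re) : RT T * Complex.exp T = Qb (Hinv T) := by
  rw [← Rr_mul_exp (re_Hinv'' T), Hb_Hinv hT, RT]

theorem norm_RT_exp_le {x : ℝ} (hx : 202 ≤ x) (η : ℝ) :
    ‖RT (x + η * I) * Complex.exp (x + η * I)‖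
      ≤ 16 * Real.exp x * (1 + ‖η‖) ^ (-(3 / 2) : ℝ) := by
  have h1 := norm_RT_le (T := x + η * I) (by simpa using hx)
  have h2 : (1 + ‖(x : ℂ) + η * I‖) ^ (-(3 / 2) : ℝ) ≤ (1 + ‖η‖) ^ (-(3 / 2) : ℝ) := by
    refine Real.rpow_le_rpow_of_nonpos (by positivity) ?_ (by norm_num)
    have := Complex.abs_im_le_norm (x + η * I)
    simp only [add_im, ofReal_im, mul_im, ofReal_re, I_im, mul_one, I_re, mul_zero, add_zero,
      zero_add] at this
    rw [Real.norm_eq_abs]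
    linarith
  rw [norm_mul, Complex.norm_exp]
  have e : ((x : ℂ) + η * I).re = x := by simp
  rw [e]
  nlinarith [Real.exp_pos x]

theorem continuousAt_RT_exp {T : ℂ} (hT : 202 < T.re) :
    ContinuousAt (fun z => RT z * Complex.exp z) T :=
  (differentiableAt_RT hT).continuousAt.mul Complex.continuous_exp.continuousAt

/-- **The Stokes constant in the variable `T`.** -/
theorem exists_stokes : ∃ S : ℂ, S ≠ 0 ∧ ∀ x : ℝ, 202 < x →
    ∫ η : ℝ, RT (x + η * I) * Complex.exp (x + η * I) = S := by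
  obtain ⟨kp, km, hne, hl⟩ := exists_kap_limits'
  refine ⟨(kp - km) / I, div_ne_zero (sub_ne_zero.2 hne) I_ne_zero, fun x hx => ?_⟩
  have hre : ∀ η : ℝ, 202 < ((x : ℂ) + η * I).re := fun η => by simpa using hx
  set V : ℝ → ℂ := fun η => Hinv (x + η * I) with hV
  have hd : ∀ η : ℝ, HasDerivAt (fun η : ℝ => kap (V η, Yb (V η)) + Qb (V η))
      (RT (x + η * I) * Complex.exp (x + η * I) * I) η := by
    intro η
    have h1 : HasDerivAt (fun z : ℂ => (x : ℂ) + z * I) I η := by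
      simpa using ((hasDerivAt_id (η : ℂ)).mul_const I).const_add (x : ℂ)
    have hm := Yb_mem (re_Hinv'' (x + η * I))
    have h2 := (hasDerivAt_kap_c (hasDerivAt_Yb (V := Hinv (x + η * I)) (Om.v_ne hm)) hm).add
      (hasDerivAt_Qb (re_Hinv'' (x + η * I)))
    refine ((h2.comp _ (hasDerivAt_Hinv (hre η))).comp (η : ℂ) h1).comp_ofReal.congr_deriv ?_
    have h3 : deriv Hb (Hinv (x + η * I)) ≠ 0 := fun h => by
      have := norm_deriv_Hb_sub_le' (re_Hinv' (x + η * I))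
      rw [h] at this
      norm_num at this
    rw [RT_mul_exp (hre η).le]
    field_simp
    ring
  have hi : Integrable fun η : ℝ => RT (x + η * I) * Complex.exp (x + η * I) :=
    Integrable.mono' ((integrable_one_add_norm (E := ℝ) (r := 3 / 2)
      (by simp; norm_num)).const_mul (16 * Real.exp x))
      (Continuous.aestronglyMeasurable (continuous_iff_continuousAt.2 fun η =>
        ContinuousAt.comp (f := fun η : ℝ => (x : ℂ) + η * I) (continuousAt_RT_exp (hre η))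
          (by fun_prop))) (Eventually.of_forall (norm_RT_exp_le hx.le))
  have him : ∀ η : ℝ, |η - (V η).im / 2| ≤ 2 := fun η => by
    simpa [hV, Hb_Hinv (hre η).le] using abs_im_Hb (re_Hinv'' (x + η * I))
  have key : ∀ l : Filter ℝ, Tendsto (fun η : ℝ => ‖η‖) l atTop →
      Tendsto (fun η => Real.exp ((V η).re / 2) * ‖V η‖⁻¹) l (𝓝 0) ∧
      Tendsto (fun η => Qb (V η)) l (𝓝 0) := by
    intro l hl
    have hn : Tendsto (fun η => ‖V η‖) l atTop := by
      refine tendsto_atTop_mono (fun η => ?_) hl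
      have h1 := norm_Hb_le (re_Hinv'' (x + η * I))
      rw [Hb_Hinv (hre η).le] at h1
      refine le_trans ?_ h1
      simpa using Complex.abs_im_le_norm (x + η * I)
    constructor
    · refine squeeze_zero (fun _ => by positivity)
        (g := fun η => 2 * Real.exp x * ‖V η‖ ^ (-(1 / 2) : ℝ)) (fun η => ?_) ?_
      · have h1 := exp_re_le (re_Hinv'' (x + η * I))
        have h0 := norm_gt_of_re (re_Hinv'' (x + η * I))
        rw [Hb_Hinv (hre η).le] at h1
        have e : ‖V η‖ ^ (-(1 / 2) : ℝ) = ‖V η‖ ^ (1 / 2 : ℝ) * ‖V η‖⁻¹ := by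
          rw [← Real.rpow_neg_one, ← Real.rpow_add (by linarith)]
          norm_num
        rw [e, ← mul_assoc]
        gcongr
        simpa using h1
      · simpa using ((tendsto_rpow_neg_atTop (y := 1 / 2) (by norm_num)).comp hn).const_mul
          (2 * Real.exp x)
    · refine squeeze_zero_norm (fun η => ?_)
        (a := fun η => 16 * Real.exp x * (1 + ‖η‖) ^ (-(3 / 2) : ℝ)) ?_
      · rw [← RT_mul_exp (hre η).le]
        exact norm_RT_exp_le hx.le η
      · simpa using ((tendsto_rpow_neg_atTop (y := 3 / 2) (by norm_num)).comp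
          (tendsto_atTop_add_const_left _ 1 hl)).const_mul (16 * Real.exp x)
  have hom : ∀ η, (V η, Yb (V η)) ∈ Om := fun η => Yb_mem (re_Hinv'' _)
  have t1 := key atTop tendsto_norm_atTop_atTop
  have t2 := key atBot tendsto_abs_atBot_atTop
  have l1 := ((hl V _ atTop t1.1 hom).1 ((eventually_gt_atTop 2000).mono fun η hη => by
    linarith [(abs_le.1 (him η)).2])).add t1.2
  have l2 := ((hl V _ atBot t2.1 hom).2 ((eventually_lt_atBot (-2000)).mono fun η hη => by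
    linarith [(abs_le.1 (him η)).1])).add t2.2
  have := integral_of_hasDerivAt_of_tendsto hd (hi.mul_const I) l2 l1
  rw [integral_mul_const] at this
  rw [eq_div_iff I_ne_zero, this]
  ring

/-- **The Stokes constant in the form used by the obstruction theorem.** -/
theorem exists_stokes_inner : ∃ S : ℂ, S ≠ 0 ∧ ∀ x : ℝ, 203 < x →
    ∫ η : ℝ, (∫ τ in (0 : ℝ)..1, Complex.exp (-τ) * RT (x - η * I - τ)) * Complex.exp (-(η * I))
      = Real.exp (-x) * S := by
  obtain ⟨S, hS, h⟩ := exists_stokes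
  refine ⟨S, hS, fun x hx => ?_⟩
  set c : ℝ → ℝ := fun τ => x - max 0 (min τ 1) with hc
  have hc1 : ∀ τ, 202 < c τ := fun τ => by
    have : max 0 (min τ 1) ≤ 1 := max_le zero_le_one (min_le_right _ _)
    simp only [hc]
    linarith
  have hc2 : ∀ τ, c τ ≤ x := fun τ => by
    simp only [hc]
    linarith [le_max_left 0 (min τ 1)]
  set F : ℝ → ℝ → ℂ := fun τ η => RT (c τ + (-η : ℝ) * I) * Complex.exp (c τ + (-η : ℝ) * I)
    with hF
  have hi : Integrable (Function.uncurry F) ((volume.restrict (uIoc 0 1)).prod volume) := by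
    have : IsFiniteMeasure (volume.restrict (uIoc (0 : ℝ) 1)) := ⟨by simp⟩
    refine Integrable.mono' (((integrable_one_add_norm (E := ℝ) (r := 3 / 2)
      (by simp; norm_num)).const_mul (16 * Real.exp x)).comp_snd _)
      (Continuous.aestronglyMeasurable (continuous_iff_continuousAt.2 fun p =>
        ContinuousAt.comp (f := fun p : ℝ × ℝ => (c p.1 : ℂ) + (-p.2 : ℝ) * I)
          (continuousAt_RT_exp (by simpa using hc1 p.1)) (by simp only [hc]; fun_prop)))
      (Eventually.of_forall fun p => (norm_RT_exp_le (hc1 p.1).le (-p.2)).trans ?_)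
    rw [norm_neg]
    gcongr
    exact hc2 _
  have h1 : ∀ η : ℝ, (∫ τ in (0 : ℝ)..1, Complex.exp (-τ) * RT (x - η * I - τ))
      * Complex.exp (-(η * I)) = Real.exp (-x) * ∫ τ in (0 : ℝ)..1, F τ η := by
    intro η
    rw [← intervalIntegral.integral_mul_const, ← intervalIntegral.integral_const_mul]
    refine intervalIntegral.integral_congr fun τ hτ => ?_
    rw [uIcc_of_le zero_le_one] at hτ
    have e : (c τ : ℂ) + (-η : ℝ) * I = x - η * I - τ := by
      simp only [hc, min_eq_left hτ.2, max_eq_right hτ.1]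
      push_cast
      ring
    simp only [hF, e]
    push_cast
    rw [mul_right_comm, ← Complex.exp_add, mul_left_comm, ← Complex.exp_add, mul_comm]
    congr 2
    ring
  simp_rw [h1]
  rw [integral_const_mul, ← intervalIntegral_integral_swap hi]
  have h2 : ∀ τ, ∫ η, F τ η = S := fun τ => by
    rw [← h (c τ) (hc1 τ)]
    exact integral_neg_eq_self (fun η : ℝ => RT (c τ + η * I) * Complex.exp (c τ + η * I)) _
  simp [h2]

end Vale.Agent.P218IN
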