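import Vale.Agent.P218IN.Kap

/-! # The isochron function `Hh` and the non-vanishing of the Stokes constant -/

open Set Metric Filter Topology Complex MeasureTheory

namespace Vale.Agent.P218IN

/-- the isochron function: `Hh + s` is constant along the inner trajectories -/
noncomputable def Hh (p : ℂ × ℂ) : ℂ := p.1 / 2 - Complex.log p.1 / 2 + Complex.log p.2 / 2 + EE p

theorem Om.v_slit {p : ℂ × ℂ} (hp : p ∈ Om) : p.1 ∈ slitPlane := Or.inl (by linarith [hp.1])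

theorem Om.y_slit {p : ℂ × ℂ} (hp : p ∈ Om) : p.2 ∈ slitPlane :=
  Or.inl (re_pos_of_norm_sub_one_lt (by linarith [hp.2]))

theorem Om.d_Hh {p : ℂ × ℂ} (hp : p ∈ Om) : DifferentiableAt ℂ Hh p := by
  have h1 : DifferentiableAt ℂ (fun q : ℂ × ℂ => Complex.log q.1) p :=
    differentiableAt_fst.clog (Om.v_slit hp)
  have h2 : DifferentiableAt ℂ (fun q : ℂ × ℂ => Complex.log q.2) p :=
    differentiableAt_snd.clog (Om.y_slit hp)
  have h3 := Om.d_EE hp
  unfold Hh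
  fun_prop

theorem fderiv_Hh {p : ℂ × ℂ} (hp : p ∈ Om) (a b : ℂ) :
    fderiv ℂ Hh p (a, b) = a / 2 - a / (2 * p.1) + b / (2 * p.2) + fderiv ℂ EE p (a, b) := by
  have ha : HasDerivAt (fun t : ℂ => p.1 + t * a) a 0 := by
    simpa using ((hasDerivAt_id (0 : ℂ)).mul_const a).const_add p.1
  have hb : HasDerivAt (fun t : ℂ => p.2 + t * b) b 0 := by
    simpa using ((hasDerivAt_id (0 : ℂ)).mul_const b).const_add p.2
  have h2 := (((ha.div_const 2).sub ((ha.clog (by simpa using Om.v_slit hp)).div_const 2)).add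
    ((hb.clog (by simpa using Om.y_slit hp)).div_const 2)).add (hasDerivAt_line (Om.d_EE hp) a b)
  rw [(hasDerivAt_line (Om.d_Hh hp) a b).unique h2]
  simp only [zero_mul, add_zero]
  ring

/-- **Transport equation for `Hh`.** -/
theorem fderiv_Hh_flow {p : ℂ × ℂ} (hp : p ∈ Om) :
    fderiv ℂ Hh p (1, G p.1 p.2) = sg p.1 p.2 / (2 * p.2) := by
  have hV := Om.v_ne hp
  have hY := Om.y_ne hp
  have hq := sg_sq p.1 p.2
  rw [fderiv_Hh hp, fderiv_EE hp, hh, G]
  field_simp at hq ⊢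
  linear_combination -hq

theorem norm_Hh_sub_le {p : ℂ × ℂ} (hp : p ∈ Om) :
    ‖Hh p - (p.1 / 2 - Complex.log p.1 / 2)‖ ≤ ‖p.2 - 1‖ + 75 * ‖p.1‖⁻¹ := by
  have h1 := Complex.norm_log_one_add_half_le_self (z := p.2 - 1) (by linarith [hp.2])
  rw [add_sub_cancel] at h1
  have h2 := norm_EE_le hp
  rw [show Hh p - (p.1 / 2 - Complex.log p.1 / 2) = Complex.log p.2 / 2 + EE p by rw [Hh]; ring]
  refine (norm_add_le _ _).trans ?_
  rw [norm_div, Complex.norm_ofNat]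
  linarith [norm_nonneg (p.2 - 1)]

theorem norm_fderiv_EE_fst {p : ℂ × ℂ} (hp : p ∈ Om) {R : ℝ} (hR : 0 < R) (h : 400 + R < p.1.re) :
    ‖fderiv ℂ EE p (1, 0)‖ ≤ (‖p.2 - 1‖ / 40 + 75 * (‖p.1‖ - R)⁻¹) / R := by
  have hm : ∀ t ∈ closedBall (0 : ℂ) R, (p.1 + t * 1, p.2 + t * 0) ∈ Om := fun t ht => by
    refine ⟨?_, by simpa using hp.2⟩
    have := (abs_le.1 ((Complex.abs_re_le_norm t).trans (mem_closedBall_zero_iff.1 ht))).1
    simp only [mul_one, add_re]
    linarith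
  rw [← (hasDerivAt_line (Om.d_EE hp) 1 0).deriv]
  refine Complex.norm_deriv_le_of_forall_mem_sphere_norm_le hR
    (DifferentiableOn.diffContOnCl_ball (fun t ht => ((Om.d_EE (hm t ht)).comp t
      (f := fun t : ℂ => (p.1 + t * 1, p.2 + t * 0)) (by fun_prop)).differentiableWithinAt)
      subset_rfl) fun t ht => ?_
  refine (norm_EE_le (hm t (sphere_subset_closedBall ht))).trans ?_
  simp only [mul_one, mul_zero, add_zero]
  have h1 := norm_sub_le (p.1 + t) t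
  rw [add_sub_cancel_right, mem_sphere_zero_iff_norm.1 ht] at h1
  have h2 := Complex.re_le_norm p.1
  gcongr
  · linarith
  · linarith

theorem norm_fderiv_EE_snd {p : ℂ × ℂ} (hp : p ∈ Om) (h : ‖p.2 - 1‖ ≤ 1 / 400) :
    ‖fderiv ℂ EE p (0, 1)‖ ≤ 1 / 10 + 40000 * ‖p.1‖⁻¹ := by
  have hm : ∀ t ∈ closedBall (0 : ℂ) (1 / 500), (p.1 + t * 0, p.2 + t * 1) ∈ Om := fun t ht => by
    refine ⟨by simpa using hp.1, ?_⟩
    have := norm_add_le (p.2 - 1) t
    rw [mem_closedBall_zero_iff] at ht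
    simp only [mul_one, add_sub_right_comm]
    linarith
  rw [← (hasDerivAt_line (Om.d_EE hp) 0 1).deriv]
  refine (Complex.norm_deriv_le_of_forall_mem_sphere_norm_le (R := 1 / 500)
    (C := 1 / 8000 + 75 * ‖p.1‖⁻¹) (by norm_num)
    (DifferentiableOn.diffContOnCl_ball (fun t ht => ((Om.d_EE (hm t ht)).comp t
      (f := fun t : ℂ => (p.1 + t * 0, p.2 + t * 1)) (by fun_prop)).differentiableWithinAt)
      subset_rfl) fun t ht => ?_).trans ?_
  · have h1 := hm t (sphere_subset_closedBall ht)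
    have h2 := norm_EE_le h1
    have h3 := h1.2
    simp only [mul_zero, add_zero, Function.comp_apply] at h2 h3 ⊢
    linarith
  · have : 0 ≤ ‖p.1‖⁻¹ := by positivity
    linarith

/-- **The Stokes constant, general boundary data.** -/
theorem stokes_general {K : ℝ} (hK : 2000 < K) {Y Y' Q Q' N : ℝ → ℂ}
    (hY : ∀ η, ‖Y η - 1‖ < 1 / 200) (hY' : ∀ η, HasDerivAt Y (Y' η) η)
    (hQ : ∀ η, HasDerivAt Q (Q' η) η) (ht : Tendsto Q atTop (𝓝 0)) (hb : Tendsto Q atBot (𝓝 0))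
    (hN : ∀ η : ℝ, N η = mu (K + η * I, Y η) * (Y' η - G (K + η * I) (Y η) * I) + Q' η)
    (hi : Integrable N) : ∫ η, N η ≠ 0 := by
  obtain ⟨kp, km, hne, hl⟩ := exists_kap_limits hK
  have hd : ∀ η : ℝ, HasDerivAt (fun η : ℝ => kap (K + η * I, Y η) + Q η) (N η) η := by
    intro η
    have h1 : HasDerivAt (fun z : ℂ => (K : ℂ) + z * I) I η := by
      simpa using ((hasDerivAt_id (η : ℂ)).mul_const I).const_add (K : ℂ)
    rw [hN]
    exact (hasDerivAt_kap (h1.comp_ofReal.prodMk (hY' η)) ⟨by simp; linarith, hY η⟩).add (hQ η)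
  rw [integral_of_hasDerivAt_of_tendsto hd hi ((hl Y hY).2.add hb) ((hl Y hY).1.add ht)]
  simpa [sub_eq_zero] using hne

/-- the boundary value of `Y = P²` -/
noncomputable def Yb (V : ℂ) : ℂ := (1 + 1 / (2 * V)) ^ 2

/-- the shift of the tip for the boundary data -/
noncomputable def Hb (V : ℂ) : ℂ := Hh (V, Yb V)

/-- the residual of the boundary action -/
noncomputable def Rr (V : ℂ) : ℂ :=
  Complex.sqrt (V - Yb V) - Complex.sqrt V + 1 / (2 * Complex.sqrt V)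

/-- `Rr * exp Hb` without roots of `V` -/
noncomputable def Qb (V : ℂ) : ℂ :=
  Complex.exp (V / 2 + EE (V, Yb V)) * (1 / (4 * V ^ 2) - G V (Yb V))

theorem norm_Yb_le {V : ℂ} (hV : 400 < V.re) : ‖Yb V - 1‖ ≤ 101 / 100 * ‖V‖⁻¹ := by
  have h0 := norm_inv_le_of_re hV
  have e : Yb V - 1 = V⁻¹ * (1 + V⁻¹ / 4) := by
    rw [Yb]
    field_simp
    ring
  have h1 := norm_add_le 1 (V⁻¹ / 4)
  rw [norm_one, norm_div, Complex.norm_ofNat] at h1
  rw [e, norm_mul, ← norm_inv, mul_comm]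
  gcongr
  linarith

theorem Yb_mem {V : ℂ} (hV : 400 < V.re) : (V, Yb V) ∈ Om := by
  refine ⟨hV, ?_⟩
  have h0 := norm_inv_le_of_re hV
  rw [norm_inv] at h0
  linarith [norm_Yb_le hV]

theorem hasDerivAt_Yb {V : ℂ} (hV : V ≠ 0) : HasDerivAt Yb (-(1 + 1 / (2 * V)) / V ^ 2) V := by
  have := ((((hasDerivAt_id V).const_mul 2).inv (by simpa using hV)).const_add 1).pow 2
  refine (this.congr_deriv ?_).congr_of_eventuallyEq (Eventually.of_forall fun z => by simp [Yb])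
  simp only [id, Pi.inv_apply, Nat.cast_ofNat, Nat.add_one_sub_one, pow_one]
  field_simp

theorem hasDerivAt_comp_Yb {f : ℂ × ℂ → ℂ} {V : ℂ} (hV : V ≠ 0)
    (hf : DifferentiableAt ℂ f (V, Yb V)) : HasDerivAt (fun z => f (z, Yb z))
      (fderiv ℂ f (V, Yb V) (1, -(1 + 1 / (2 * V)) / V ^ 2)) V :=
  hf.hasFDerivAt.comp_hasDerivAt V ((hasDerivAt_id V).prodMk (hasDerivAt_Yb hV))

theorem differentiableOn_Hb : DifferentiableOn ℂ Hb {V | 400 < V.re} := fun _ hV =>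
  (hasDerivAt_comp_Yb (Om.v_ne (Yb_mem hV))
    (Om.d_Hh (Yb_mem hV))).differentiableAt.differentiableWithinAt

theorem norm_Hb_sub_le {V : ℂ} (hV : 400 < V.re) :
    ‖Hb V - (V / 2 - Complex.log V / 2)‖ ≤ 77 * ‖V‖⁻¹ := by
  have h1 := norm_Hh_sub_le (Yb_mem hV)
  have h2 := norm_Yb_le hV
  have : 0 ≤ ‖V‖⁻¹ := by positivity
  simp only at h1
  rw [Hb]
  linarith

theorem norm_deriv_Hb_sub_le {V : ℂ} (hV : 401 < V.re) : ‖deriv Hb V - 1 / 2‖ ≤ 80 * ‖V‖⁻¹ := by
  have hV' : 400 < V.re := by linarith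
  have hA := Complex.re_le_norm V
  have hm : ∀ t ∈ closedBall V 1, 400 < t.re := fun t ht => by
    have := (abs_le.1 ((Complex.abs_re_le_norm (t - V)).trans (mem_closedBall_iff_norm.1 ht))).1
    simp only [sub_re] at this
    linarith
  have hd : ∀ t : ℂ, 400 < t.re → HasDerivAt (fun z => Hb z - (z / 2 - Complex.log z / 2))
      (deriv Hb t - (1 / 2 - t⁻¹ / 2)) t := fun t ht =>
    (differentiableOn_Hb.differentiableAt ((isOpen_lt continuous_const continuous_re).mem_nhds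
      ht)).hasDerivAt.sub (((hasDerivAt_id t).div_const 2).sub
      ((Complex.hasDerivAt_log (Om.v_slit (Yb_mem ht))).div_const 2))
  have h1 := Complex.norm_deriv_le_of_forall_mem_sphere_norm_le (c := V) (R := 1)
    (C := 78 * ‖V‖⁻¹) one_pos (DifferentiableOn.diffContOnCl_ball
      (fun t ht => (hd t (hm t ht)).differentiableAt.differentiableWithinAt) subset_rfl)
    fun t ht => by
      refine (norm_Hb_sub_le (hm t (sphere_subset_closedBall ht))).trans ?_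
      have h1 := norm_sub_le t (t - V)
      rw [sub_sub_cancel, mem_sphere_iff_norm.1 ht] at h1
      rw [← div_eq_mul_inv, ← div_eq_mul_inv, div_le_div_iff₀ (by linarith) (by linarith)]
      linarith
  rw [(hd V hV').deriv, div_one] at h1
  have h2 := norm_sub_le (deriv Hb V - (1 / 2 - V⁻¹ / 2)) (V⁻¹ / 2)
  rw [norm_div, norm_inv, Complex.norm_ofNat,
    show deriv Hb V - (1 / 2 - V⁻¹ / 2) - V⁻¹ / 2 = deriv Hb V - 1 / 2 by ring] at h2
  have : 0 ≤ ‖V‖⁻¹ := by positivity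
  linarith

theorem hasDerivAt_Qb {V : ℂ} (hV : 400 < V.re) : HasDerivAt Qb
    (Qb V * deriv Hb V - mu (V, Yb V) * (-(1 + 1 / (2 * V)) / V ^ 2 - G V (Yb V))) V := by
  have hm := Yb_mem hV
  have h0 : V ≠ 0 := Om.v_ne hm
  have hs : sg V (Yb V) ≠ 0 := Om.s_ne hm
  have hP : 1 + 1 / (2 * V) ≠ 0 := fun h => Om.y_ne hm (by simp only [Yb, h]; norm_num)
  have hP' : 2 * V + 1 ≠ 0 := fun h => hP (by field_simp; linear_combination h)
  have h1 := ((((hasDerivAt_id V).div_const 2).add (hasDerivAt_comp_Yb h0 (Om.d_EE hm))).cexp).mul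
    (((((hasDerivAt_id V).pow 2).const_mul 4).inv (by simpa using h0)).sub
      ((hasDerivAt_comp_Yb h0 (Om.d_sg hm)).const_sub 1))
  refine (h1.congr_deriv ?_).congr_of_eventuallyEq
    (Eventually.of_forall fun z => by simp [Qb, G])
  have h2 : deriv Hb V = _ := (hasDerivAt_comp_Yb h0 (Om.d_Hh hm)).deriv
  have hq := sg_sq V (Yb V)
  rw [h2, fderiv_Hh hm, fderiv_sg hm]
  simp only [Qb, mu, G, id, Pi.add_apply, Pi.sub_apply, Pi.inv_apply, Pi.pow_apply,
    Nat.cast_ofNat, Nat.add_one_sub_one, pow_one]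
  set s := sg V (Yb V)
  set D := fderiv ℂ EE (V, Yb V) (1, -(1 + 1 / (2 * V)) / V ^ 2)
  have h4 : -(4 * (2 * V * 1)) / (4 * V ^ 2) ^ 2 + (-(1 + 1 / (2 * V)) / V ^ 2 * (1 - 2 * Yb V / V)
      + 1 * Yb V ^ 2 / V ^ 2) / (2 * s) = (1 / (4 * V ^ 2) - (1 - s)) * (-(1 / (2 * V))
      + -(1 + 1 / (2 * V)) / V ^ 2 / (2 * Yb V))
      - Yb V / (2 * V * s) * (-(1 + 1 / (2 * V)) / V ^ 2 - (1 - s)) := by
    rw [Yb] at hq ⊢
    field_simp at hq ⊢
    linear_combination (8 * V + 12) * hq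
  linear_combination Complex.exp (V / 2 + EE (V, Yb V)) * h4

theorem norm_Qb_le {V : ℂ} (hV : 400 < V.re) :
    ‖Qb V‖ ≤ 2 * Real.exp (V.re / 2) * ‖V‖⁻¹ ^ 2 := by
  have hm := Yb_mem hV
  have h0 : V ≠ 0 := Om.v_ne hm
  have h1 := norm_EE_le' hm
  have h2 : ‖sg V (Yb V) - 1‖ ≤ 1 / 30 := norm_sg_sub_one_le' (Om.y_le hm) (Om.v_le hm)
  have h3 : 59 / 30 ≤ ‖1 + sg V (Yb V)‖ := by
    have := Complex.re_le_norm (1 + sg V (Yb V))
    simp only [add_re, one_re] at this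
    linarith [re_ge_of_norm_sub_one_le h2]
  have h5 : ‖Complex.exp (EE (V, Yb V))‖ ≤ 7 / 5 := by
    have := norm_add_le (Complex.exp (EE (V, Yb V)) - 1) 1
    simp only [sub_add_cancel, norm_one] at this
    linarith [Complex.norm_exp_sub_one_le (x := EE (V, Yb V)) (by linarith)]
  have e : ‖Complex.exp (V / 2)‖ = Real.exp (V.re / 2) := by
    rw [Complex.norm_exp]
    simp
  have ht := norm_inv_le_of_re hV
  have hq := sg_sq V (Yb V)
  have e2 : G V (Yb V) * (1 + sg V (Yb V))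
      = V⁻¹ ^ 2 * (7 / 4 + V⁻¹ * (3 / 2 + V⁻¹ * (1 / 2 + V⁻¹ / 16))) := by
    rw [G]
    rw [Yb] at hq ⊢
    field_simp at hq ⊢
    linear_combination -8 * hq
  have h6 : ‖7 / 4 + V⁻¹ * (3 / 2 + V⁻¹ * (1 / 2 + V⁻¹ / 16))‖ ≤ 2 := by
    have a1 := norm_add_le (1 / 2) (V⁻¹ / 16)
    have a2 := norm_add_le (3 / 2) (V⁻¹ * (1 / 2 + V⁻¹ / 16))
    have a3 := norm_add_le (7 / 4) (V⁻¹ * (3 / 2 + V⁻¹ * (1 / 2 + V⁻¹ / 16)))
    simp only [norm_div, norm_mul, norm_one, Complex.norm_ofNat] at a1 a2 a3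
    have a4 : ‖V⁻¹‖ * ‖1 / 2 + V⁻¹ / 16‖ ≤ 1 / 400 * 1 := by gcongr; linarith
    have a5 : ‖V⁻¹‖ * ‖3 / 2 + V⁻¹ * (1 / 2 + V⁻¹ / 16)‖ ≤ 1 / 400 * 2 := by gcongr; linarith
    linarith
  have h7 : ‖G V (Yb V)‖ ≤ 11 / 10 * ‖V‖⁻¹ ^ 2 := by
    have h8 := congrArg norm e2
    rw [norm_mul, norm_mul, norm_pow, norm_inv] at h8
    have h9 : 0 ≤ ‖V‖⁻¹ ^ 2 := by positivity
    nlinarith [mul_le_mul_of_nonneg_left h6 h9,
      mul_le_mul_of_nonneg_left h3 (norm_nonneg (G V (Yb V)))]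
  have h8 : ‖1 / (4 * V ^ 2) - G V (Yb V)‖ ≤ 27 / 20 * ‖V‖⁻¹ ^ 2 := by
    refine (norm_sub_le _ _).trans ?_
    have : ‖1 / (4 * V ^ 2)‖ = 1 / 4 * ‖V‖⁻¹ ^ 2 := by simp [mul_comm]
    linarith
  rw [Qb, Complex.exp_add, norm_mul, norm_mul, e]
  calc Real.exp (V.re / 2) * ‖Complex.exp (EE (V, Yb V))‖ * ‖1 / (4 * V ^ 2) - G V (Yb V)‖
      ≤ Real.exp (V.re / 2) * (7 / 5) * (27 / 20 * ‖V‖⁻¹ ^ 2) := by gcongr
    _ ≤ _ := by
      have : 0 ≤ Real.exp (V.re / 2) * ‖V‖⁻¹ ^ 2 := by positivity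
      nlinarith

theorem exp_log_half {z : ℂ} (hz : z ≠ 0) : Complex.exp (Complex.log z / 2) = Complex.sqrt z := by
  rw [Complex.sqrt, Complex.cpow_def_of_ne_zero hz, div_eq_mul_inv]

theorem norm_sqrt_le_two_re {V : ℂ} (hV : 0 ≤ V.re) :
    ‖Complex.sqrt V‖ ≤ 2 * (Complex.sqrt V).re := by
  have h1 := congrArg Complex.re (sqrt_sq' V)
  have h2 := sqrt_re_nonneg V
  rw [sq, mul_re] at h1
  rw [← sq_le_sq₀ (norm_nonneg _) (by linarith), Complex.sq_norm, Complex.normSq_apply]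
  nlinarith

theorem Rr_mul_exp {V : ℂ} (hV : 400 < V.re) : Rr V * Complex.exp (Hb V) = Qb V := by
  have hm := Yb_mem hV
  have h0 : V ≠ 0 := Om.v_ne hm
  have ht := norm_inv_le_of_re hV
  have hR := sqrt_sq' V
  have hR0 : Complex.sqrt V ≠ 0 := fun h => h0 (by rw [← hR, h]; ring)
  have hP1 : ‖(1 + 1 / (2 * V)) - 1‖ ≤ 1 / 800 := by
    rw [add_sub_cancel_left, one_div, mul_inv, norm_mul]
    simp only [norm_inv, Complex.norm_ofNat] at ht ⊢
    linarith
  set P := 1 + 1 / (2 * V) with hP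
  have hP0 : P ≠ 0 := ne_zero_of_near (by linarith)
  have h2 : ‖sg V (Yb V) - 1‖ ≤ 1 / 30 := norm_sg_sub_one_le' (Om.y_le hm) (Om.v_le hm)
  have e1 : Complex.sqrt (Yb V) = P :=
    sqrt_eq_of_sq (re_pos_of_norm_sub_one_lt (by linarith)) rfl
  have h3 : ‖sg V (Yb V) / P - 1‖ ≤ 1 / 10 := by
    have h4 : 9 / 10 ≤ ‖P‖ := by linarith [re_ge_of_norm_sub_one_le hP1, Complex.re_le_norm P]
    rw [show sg V (Yb V) / P - 1 = ((sg V (Yb V) - 1) - (P - 1)) / P by field_simp; ring,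
      norm_div, div_le_iff₀ (by linarith)]
    linarith [norm_sub_le (sg V (Yb V) - 1) (P - 1)]
  have e2 : Complex.sqrt (V - Yb V) = Complex.sqrt V * (sg V (Yb V) / P) := by
    refine sqrt_eq_of_sq ?_ ?_
    · have h4 := norm_sqrt_le_two_re (V := V) (by linarith)
      have h5 := (abs_le.1 (Complex.abs_re_le_norm (Complex.sqrt V * (sg V (Yb V) / P - 1)))).1
      have h6 := norm_pos_iff.2 hR0
      rw [norm_mul, mul_sub, mul_one, sub_re] at h5
      nlinarith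
    · rw [mul_pow, hR, div_pow, sg_sq]
      change V * (P ^ 2 * (1 - Yb V / V) / P ^ 2) = _
      field_simp
  have e3 : Complex.exp (Hb V) = Complex.exp (V / 2 + EE (V, Yb V)) * P / Complex.sqrt V := by
    rw [Hb, Hh, ← e1, ← exp_log_half (Om.y_ne hm), ← exp_log_half h0, ← Complex.exp_add,
      ← Complex.exp_sub]
    congr 1
    ring
  rw [Rr, e2, e3, Qb, G]
  set R := Complex.sqrt V
  have e4 : (R * (sg V (Yb V) / P) - R + 1 / (2 * R)) * P / R
      = 1 / (4 * V ^ 2) - (1 - sg V (Yb V)) := by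
    have e5 : (R * (sg V (Yb V) / P) - R + 1 / (2 * R)) * P / R
        = sg V (Yb V) - (1 - 1 / (2 * R ^ 2)) * P := by
      field_simp
      ring
    rw [e5, hR, hP]
    field_simp
    ring
  linear_combination Complex.exp (V / 2 + EE (V, Yb V)) * e4

theorem norm_integrand_le {K : ℝ} (hK : 2000 < K) (η : ℝ) :
    ‖Qb (K + η * I)‖ ≤ 2 * Real.exp (K / 2) * (1 + η ^ 2)⁻¹ := by
  have h1 := norm_Qb_le (V := K + η * I) (by simp; linarith)
  have e : ((K : ℂ) + η * I).re = K := by simp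
  rw [e, inv_pow, Complex.sq_norm, Complex.normSq_add_mul_I] at h1
  refine h1.trans ?_
  gcongr
  nlinarith

/-- **The Stokes constant does not vanish.** -/
theorem stokes_Qb {K : ℝ} (hK : 2000 < K) :
    Integrable (fun η : ℝ => Qb (K + η * I) * deriv Hb (K + η * I)) ∧
      ∫ η : ℝ, Qb (K + η * I) * deriv Hb (K + η * I) ≠ 0 := by
  have hre : ∀ η : ℝ, 401 < ((K : ℂ) + η * I).re := fun η => by simp; linarith
  have hre' : ∀ η : ℝ, 400 < ((K : ℂ) + η * I).re := fun η => by linarith [hre η]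
  have h1 : ∀ η : ℝ, HasDerivAt (fun z : ℂ => (K : ℂ) + z * I) I η := fun η => by
    simpa using ((hasDerivAt_id (η : ℂ)).mul_const I).const_add (K : ℂ)
  have hQ := fun η : ℝ => ((hasDerivAt_Qb (hre' η)).comp (η : ℂ) (h1 η)).comp_ofReal
  have hY := fun η : ℝ =>
    ((hasDerivAt_Yb (V := K + η * I) (Om.v_ne (Yb_mem (hre' η)))).comp (η : ℂ) (h1 η)).comp_ofReal
  have hi : Integrable (fun η : ℝ => Qb (K + η * I) * deriv Hb (K + η * I)) := by
    refine Integrable.mono' (integrable_inv_one_add_sq.const_mul (2 * Real.exp (K / 2)))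
      (Continuous.aestronglyMeasurable (Continuous.mul
        (continuous_iff_continuousAt.2 fun η => (hQ η).continuousAt) ?_))
      (Eventually.of_forall fun η => ?_)
    · exact (differentiableOn_Hb.deriv (isOpen_lt continuous_const
        continuous_re)).continuousOn.comp_continuous (by fun_prop) hre'
    · have h2 := norm_deriv_Hb_sub_le (hre η)
      have h3 := norm_inv_le_of_re (hre' η)
      have h4 := norm_add_le (deriv Hb (K + η * I) - 1 / 2) (1 / 2)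
      simp only [norm_inv, sub_add_cancel, norm_div, norm_one, Complex.norm_ofNat] at h3 h4
      rw [norm_mul]
      exact (mul_le_of_le_one_right (norm_nonneg _) (by linarith)).trans (norm_integrand_le hK η)
  have hz : ∀ l : Filter ℝ, Tendsto (fun η : ℝ => η ^ 2) l atTop →
      Tendsto (fun η : ℝ => Qb (K + η * I)) l (𝓝 0) := fun l hl =>
    squeeze_zero_norm (norm_integrand_le hK) (by
      simpa using (tendsto_inv_atTop_zero.comp
        (tendsto_atTop_add_const_left _ 1 hl)).const_mul (2 * Real.exp (K / 2)))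
  refine ⟨hi, fun h => stokes_general hK (Y := fun η => Yb (K + η * I))
    (N := fun η => Qb (K + η * I) * deriv Hb (K + η * I) * I) (fun η => (Yb_mem (hre' η)).2)
    hY hQ
    (hz _ (tendsto_pow_atTop two_ne_zero)) (hz _ ?_) (fun η => by ring)
    (hi.mul_const I) (by rw [integral_mul_const, h, zero_mul])⟩
  simpa [Function.comp_def] using (tendsto_pow_atTop (α := ℝ) two_ne_zero).comp
    tendsto_neg_atBot_atTop

/-- **The Stokes constant does not vanish**, with the principal square roots. -/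
theorem stokes_ne_zero {K : ℝ} (hK : 2000 < K) :
    Integrable (fun η : ℝ => Rr (K + η * I) * Complex.exp (Hb (K + η * I)) * deriv Hb (K + η * I))
      ∧ ∫ η : ℝ, Rr (K + η * I) * Complex.exp (Hb (K + η * I)) * deriv Hb (K + η * I) ≠ 0 := by
  have e : ∀ η : ℝ, Rr (K + η * I) * Complex.exp (Hb (K + η * I)) = Qb (K + η * I) := fun η =>
    Rr_mul_exp (by simp; linarith)
  simp only [e]
  exact stokes_Qb hK

end Vale.Agent.P218IN
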