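import Vale.Agent.P218IN.Ray

/-! # Weighted operators for the forward initial value problem -/

open Set Metric Filter Topology Complex MeasureTheory
open scoped NNReal BoundedContinuousFunction

namespace Vale.Agent.P218IN

theorem integral_inv_sq {A : ℝ} (hA : 0 < A) :
    IntegrableOn (fun τ : ℝ => ((A + τ) ^ 2)⁻¹) (Ioi 0) ∧
      ∫ τ in Ioi (0 : ℝ), ((A + τ) ^ 2)⁻¹ = A⁻¹ := by
  have hd : ∀ x ∈ Ici (0 : ℝ), HasDerivAt (fun τ : ℝ => -(A + τ)⁻¹) (((A + x) ^ 2)⁻¹) x := by
    intro x hx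
    have h0 : A + x ≠ 0 := by
      have : (0 : ℝ) ≤ x := hx
      positivity
    have := (((hasDerivAt_id x).const_add A).inv h0).neg
    refine this.congr_deriv ?_
    simp only [id]
    field_simp
  have ht : Tendsto (fun τ : ℝ => -(A + τ)⁻¹) atTop (𝓝 0) := by
    simpa using (tendsto_inv_atTop_zero.comp (tendsto_atTop_add_const_left _ A tendsto_id)).neg
  refine ⟨integrableOn_Ioi_deriv_of_nonneg' hd (fun x _ => by positivity) ht, ?_⟩
  rw [integral_Ioi_of_hasDerivAt_of_nonneg' hd (fun x _ => by positivity) ht]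
  simp

/-- the weight -/
noncomputable def om (s : ℝ) : ℝ := 400 / (400 + s)

theorem om_pos {s : ℝ} (hs : 0 ≤ s) : 0 < om s := by unfold om; positivity

theorem om_le_one {s : ℝ} (hs : 0 ≤ s) : om s ≤ 1 := by
  unfold om
  rw [div_le_one (by positivity)]
  linarith

theorem continuous_om : Continuous fun τ : ℝ≥0 => (om τ : ℂ) := by
  refine continuous_ofReal.comp ?_
  unfold om
  exact Continuous.div continuous_const (by fun_prop) fun τ => by positivity

theorem om_ne (τ : ℝ≥0) : (om τ : ℂ) ≠ 0 := by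
  exact_mod_cast (om_pos (NNReal.coe_nonneg τ)).ne'

theorem norm_om {s : ℝ} (hs : 0 ≤ s) : ‖(om s : ℂ)‖ = om s := by
  rw [Complex.norm_real, Real.norm_of_nonneg (om_pos hs).le]

/-- the weight as an element of `BB` -/
noncomputable def omB : BB := mkB fun τ : ℝ≥0 => (om τ : ℂ)

theorem omB_apply (τ : ℝ≥0) : omB τ = om τ :=
  mkB_apply continuous_om (C := 1)
    (fun τ => by rw [norm_om (NNReal.coe_nonneg τ)]; exact om_le_one (NNReal.coe_nonneg τ)) τ

theorem norm_omB_le : ‖omB‖ ≤ 1 :=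
  norm_mkB_le continuous_om
    fun τ => by rw [norm_om (NNReal.coe_nonneg τ)]; exact om_le_one (NNReal.coe_nonneg τ)

theorem ext_omB_mul (f : BB) {s : ℝ} (hs : 0 ≤ s) : ext (omB * f) s = om s * ext f s := by
  simp [ext, omB_apply, Real.coe_toNNReal s hs]

theorem eB_aux (τ : ℝ≥0) : ‖Complex.exp (-(((τ : ℝ) : ℂ) / 2)) / om τ‖ ≤ 1 := by
  have h0 := NNReal.coe_nonneg τ
  rw [norm_div, norm_om h0, div_le_one (om_pos h0), Complex.norm_exp]
  have e : (-(((τ : ℝ) : ℂ) / 2)).re = -((τ : ℝ) / 2) := by simp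
  rw [e, Real.exp_neg, om, inv_le_comm₀ (Real.exp_pos _) (by positivity), inv_div]
  refine le_trans ?_ (Real.add_one_le_exp _)
  linarith

/-- the free solution -/
noncomputable def eB : BB := mkB fun τ : ℝ≥0 => Complex.exp (-(((τ : ℝ) : ℂ) / 2)) / om τ

theorem continuous_eB_aux :
    Continuous fun τ : ℝ≥0 => Complex.exp (-(((τ : ℝ) : ℂ) / 2)) / om τ :=
  Continuous.div (by fun_prop) continuous_om om_ne

theorem eB_apply (τ : ℝ≥0) : eB τ = Complex.exp (-(((τ : ℝ) : ℂ) / 2)) / om τ :=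
  mkB_apply continuous_eB_aux eB_aux τ

theorem norm_eB_le : ‖eB‖ ≤ 1 := norm_mkB_le continuous_eB_aux eB_aux

/-- the solution of `η' = g - η / 2`, `η 0 = 0` -/
noncomputable def Kf (g : BB) (τ : ℝ) : ℂ :=
  Complex.exp (-((τ : ℂ) / 2)) * ∫ s in (0 : ℝ)..τ, Complex.exp ((s : ℂ) / 2) * ext g s

theorem continuous_Kf_aux (g : BB) :
    Continuous fun s : ℝ => Complex.exp ((s : ℂ) / 2) * ext g s := by
  have := continuous_ext g
  fun_prop

theorem hasDerivAt_cexp_half (τ : ℝ) : HasDerivAt (fun t : ℝ => Complex.exp (-((t : ℂ) / 2)))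
    (-(Complex.exp (-((τ : ℂ) / 2)) / 2)) τ := by
  have := (((hasDerivAt_id (τ : ℂ)).div_const 2).neg.cexp).comp_ofReal
  refine this.congr_deriv ?_
  simp only [id, Pi.neg_apply]
  ring

theorem hasDerivAt_Kf (g : BB) (τ : ℝ) : HasDerivAt (Kf g) (ext g τ - Kf g τ / 2) τ := by
  have h2 := ((continuous_Kf_aux g).integral_hasStrictDerivAt 0 τ).hasDerivAt
  refine ((hasDerivAt_cexp_half τ).mul h2).congr_deriv ?_
  simp only [Kf]
  have h4 : Complex.exp (-((τ : ℂ) / 2)) * Complex.exp ((τ : ℂ) / 2) = 1 := by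
    rw [← Complex.exp_add]
    simp
  linear_combination (ext g τ) * h4

theorem continuous_Kf (g : BB) : Continuous (Kf g) :=
  continuous_iff_continuousAt.2 fun τ => (hasDerivAt_Kf g τ).continuousAt

theorem norm_Kf_le (f : BB) {τ : ℝ} (hτ : 0 ≤ τ) : ‖Kf (omB * f) τ‖ ≤ 3 * ‖f‖ * om τ := by
  have hB : ∀ x : ℝ, 0 ≤ x → HasDerivAt (fun s : ℝ => 3 * ‖f‖ * (Real.exp (s / 2) * om s))
      (3 * ‖f‖ * (Real.exp (x / 2) * (om x / 2 - om x ^ 2 / 400))) x := by
    intro x hx
    have h0 : 400 + x ≠ 0 := by positivity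
    have h1 : HasDerivAt om (-(om x ^ 2 / 400)) x := by
      have := (((hasDerivAt_id x).const_add 400).inv h0).const_mul 400
      refine (this.congr_deriv ?_).congr_of_eventuallyEq (Eventually.of_forall fun y => ?_)
      · simp only [id, om]
        field_simp
      · simp [om, div_eq_mul_inv]
    refine ((((hasDerivAt_id x).div_const 2).exp.mul h1).const_mul (3 * ‖f‖)).congr_deriv ?_
    simp only [id]
    ring
  have h := image_norm_le_of_norm_deriv_right_le_deriv_boundary' (a := 0) (b := τ)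
    (f := fun t : ℝ => ∫ s in (0 : ℝ)..t, Complex.exp ((s : ℂ) / 2) * ext (omB * f) s)
    (fun t _ => ((continuous_Kf_aux _).integral_hasStrictDerivAt
      0 t).hasDerivAt.continuousAt.continuousWithinAt)
    (fun t _ => ((continuous_Kf_aux _).integral_hasStrictDerivAt 0 t).hasDerivAt.hasDerivWithinAt)
    (B := fun s : ℝ => 3 * ‖f‖ * (Real.exp (s / 2) * om s))
    (by simp only [intervalIntegral.integral_same, norm_zero]
        have := om_pos (le_refl 0)
        positivity)
    (fun t ht => (hB t ht.1).continuousAt.continuousWithinAt)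
    (fun t ht => (hB t ht.1).hasDerivWithinAt)
    (fun t ht => by
      rw [ext_omB_mul f ht.1, norm_mul, norm_mul, norm_om ht.1, Complex.norm_exp]
      have e : ((t : ℂ) / 2).re = t / 2 := by simp
      rw [e]
      have h1 := om_pos ht.1
      have h2 := om_le_one ht.1
      have h3 := norm_ext_le f t
      have h4 := Real.exp_pos (t / 2)
      have h5 : om t * ‖ext f t‖ ≤ 3 * ‖f‖ * (om t / 2 - om t ^ 2 / 400) := by
        have h6 : om t ≤ 3 * (om t / 2 - om t ^ 2 / 400) := by nlinarith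
        calc om t * ‖ext f t‖ ≤ (3 * (om t / 2 - om t ^ 2 / 400)) * ‖f‖ :=
              mul_le_mul h6 h3 (norm_nonneg _) (h1.le.trans h6)
          _ = _ := by ring
      nlinarith) ⟨hτ, le_rfl⟩
  rw [Kf, norm_mul, Complex.norm_exp]
  have e : (-((τ : ℂ) / 2)).re = -(τ / 2) := by simp
  have h7 : Real.exp (-(τ / 2)) * Real.exp (τ / 2) = 1 := by
    rw [← Real.exp_add]
    simp
  rw [e]
  calc Real.exp (-(τ / 2)) * ‖∫ s in (0 : ℝ)..τ, Complex.exp ((s : ℂ) / 2) * ext (omB * f) s‖
      ≤ Real.exp (-(τ / 2)) * (3 * ‖f‖ * (Real.exp (τ / 2) * om τ)) := by gcongr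
    _ = (Real.exp (-(τ / 2)) * Real.exp (τ / 2)) * (3 * ‖f‖ * om τ) := by ring
    _ = _ := by rw [h7, one_mul]

theorem Iop_aux (f : BB) : (Continuous fun τ : ℝ≥0 => Kf (omB * f) τ / om τ) ∧
    ∀ τ : ℝ≥0, ‖Kf (omB * f) τ / om τ‖ ≤ 3 * ‖f‖ := by
  refine ⟨Continuous.div ((continuous_Kf _).comp NNReal.continuous_coe) continuous_om om_ne,
    fun τ => ?_⟩
  have h0 := NNReal.coe_nonneg τ
  rw [norm_div, norm_om h0, div_le_iff₀ (om_pos h0)]
  exact norm_Kf_le f h0

theorem mkB_Iop (f : BB) (τ : ℝ≥0) :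
    mkB (fun τ : ℝ≥0 => Kf (omB * f) τ / om τ) τ = Kf (omB * f) τ / om τ :=
  mkB_apply (Iop_aux f).1 (Iop_aux f).2 τ

/-- the weighted forward operator -/
noncomputable def Iop : BB →L[ℂ] BB :=
  LinearMap.mkContinuous
    { toFun := fun f => mkB fun τ : ℝ≥0 => Kf (omB * f) τ / om τ
      map_add' := fun f g => by
        ext τ
        simp only [BoundedContinuousFunction.add_apply, mkB_Iop]
        simp only [Kf]
        rw [← add_div, ← mul_add, ← intervalIntegral.integral_add
          ((continuous_Kf_aux _).intervalIntegrable _ _)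
          ((continuous_Kf_aux _).intervalIntegrable _ _)]
        simp only [ext, BoundedContinuousFunction.add_apply, mul_add]
      map_smul' := fun c f => by
        ext τ
        simp only [BoundedContinuousFunction.smul_apply, mkB_Iop]
        simp only [Kf, RingHom.id_apply, smul_eq_mul, ext]
        rw [← mul_div_assoc, mul_left_comm c, ← intervalIntegral.integral_const_mul c]
        congr 3
        funext s
        simp only [BoundedContinuousFunction.mul_apply, BoundedContinuousFunction.smul_apply,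
          smul_eq_mul]
        ring }
    3 fun f => norm_mkB_le (Iop_aux f).1 (Iop_aux f).2

theorem Iop_apply (f : BB) (τ : ℝ≥0) : Iop f τ = Kf (omB * f) τ / om τ := mkB_Iop f τ

theorem norm_Iop_le : ‖Iop‖ ≤ 3 := LinearMap.mkContinuous_norm_le _ (by norm_num) _

theorem integrableOn_om_sq : IntegrableOn (fun s : ℝ => (om s : ℂ) ^ 2) (Ioi 0) := by
  have h := ((integral_inv_sq (A := 400) (by norm_num)).1.const_mul (400 ^ 2)).ofReal (𝕜 := ℂ)
  refine IntegrableOn.congr_fun h (fun s _ => ?_) measurableSet_Ioi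
  simp only [om]
  push_cast
  rw [div_pow, div_eq_mul_inv]
  rfl

theorem integrableOn_Lam (f : BB) :
    IntegrableOn (fun s : ℝ => (om s : ℂ) ^ 2 * ext f s) (Ioi 0) :=
  integrableOn_om_sq.mul_bdd (continuous_ext f).aestronglyMeasurable
    (Eventually.of_forall fun s => norm_ext_le f s)

/-- the weighted integral -/
noncomputable def Lam : BB →L[ℂ] ℂ :=
  LinearMap.mkContinuous
    { toFun := fun f => ∫ s in Ioi (0 : ℝ), (om s : ℂ) ^ 2 * ext f s
      map_add' := fun f g => by
        rw [← integral_add (integrableOn_Lam f) (integrableOn_Lam g)]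
        simp only [ext, BoundedContinuousFunction.add_apply, mul_add]
      map_smul' := fun c f => by
        simp only [RingHom.id_apply, smul_eq_mul, ext]
        rw [← integral_const_mul c]
        congr 1
        funext s
        simp only [BoundedContinuousFunction.smul_apply, smul_eq_mul]
        ring }
    (∫ s in Ioi (0 : ℝ), ‖(om s : ℂ) ^ 2‖) fun f => by
      rw [← integral_mul_const]
      refine norm_integral_le_of_norm_le (integrableOn_om_sq.norm.mul_const _)
        (Eventually.of_forall fun s => ?_)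
      rw [norm_mul]
      gcongr
      exact norm_ext_le f s

theorem Lam_apply (f : BB) : Lam f = ∫ s in Ioi (0 : ℝ), (om s : ℂ) ^ 2 * ext f s := rfl

/-- the weighted inverse along the horizontal ray -/
noncomputable def iotaF (V : ℂ) : BB := mkB fun τ : ℝ≥0 => (V + (τ : ℝ))⁻¹ / om τ

theorem add_ne_zero_of_re {V : ℂ} (hV : 400 < V.re) {s : ℝ} (hs : 0 ≤ s) : V + s ≠ 0 := by
  intro h
  have := congrArg Complex.re h
  simp only [add_re, ofReal_re, zero_re] at this
  linarith

theorem iotaF_aux {V : ℂ} (hV : 400 < V.re) :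
    (Continuous fun τ : ℝ≥0 => (V + (τ : ℝ))⁻¹ / om τ) ∧
      ∀ τ : ℝ≥0, ‖(V + (τ : ℝ))⁻¹ / om τ‖ ≤ 1 / 400 := by
  refine ⟨Continuous.div (Continuous.inv₀ (by fun_prop) fun τ =>
    add_ne_zero_of_re hV (NNReal.coe_nonneg τ)) continuous_om om_ne, fun τ => ?_⟩
  have h0 := NNReal.coe_nonneg τ
  have h1 : 400 + (τ : ℝ) ≤ ‖V + (τ : ℝ)‖ := by
    refine le_trans ?_ (Complex.re_le_norm _)
    simp only [add_re, ofReal_re]
    linarith
  rw [norm_div, norm_om h0, div_le_iff₀ (om_pos h0), norm_inv, om]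
  refine (inv_anti₀ (by positivity) h1).trans (le_of_eq ?_)
  field_simp

theorem iotaF_apply {V : ℂ} (hV : 400 < V.re) (τ : ℝ≥0) :
    iotaF V τ = (V + (τ : ℝ))⁻¹ / om τ := mkB_apply (iotaF_aux hV).1 (iotaF_aux hV).2 τ

theorem norm_iotaF_le {V : ℂ} (hV : 400 < V.re) : ‖iotaF V‖ ≤ 1 / 400 :=
  norm_mkB_le (iotaF_aux hV).1 (iotaF_aux hV).2

theorem differentiableOn_iotaF : DifferentiableOn ℂ iotaF {V | 400 < V.re} := by
  refine differentiableOn_of_resolvent (c := omB) (isOpen_lt continuous_const continuous_re)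
    (fun V hV => norm_iotaF_le hV) fun V hV W hW => ?_
  ext τ
  have h1 := add_ne_zero_of_re hV (NNReal.coe_nonneg τ)
  have h2 := add_ne_zero_of_re hW (NNReal.coe_nonneg τ)
  have h3 := om_ne τ
  simp only [BoundedContinuousFunction.sub_apply, BoundedContinuousFunction.smul_apply,
    BoundedContinuousFunction.mul_apply, iotaF_apply hV, iotaF_apply hW, smul_eq_mul, omB_apply]
  field_simp
  ring

end Vale.Agent.P218IN
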